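import Vale.Agent.P054.T2.H981.Prod2
import Vale.Agent.P054.T2.H930.GlueB1
import Vale.Agent.P054.T2.H428.SecC

set_option autoImplicit false
set_option linter.all false

/-!
# P054 / T2, seam [PROD-SIDE]: the product structure of `Z⁺` in the letters of section C
-/

namespace Vale.Agent.P054.T2.H981

open MvPolynomial Module
open Vale.Agent.P054.T2.SecC
open Vale.Agent.P054.T2.H686 (mu meet Qf Crd leaf Bf)
open Vale.Agent.P054.T2.H192 (W Iso)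
open Vale.Agent.P054.T2.H580 (Vw)
open Vale.Agent.P054.T2.H930 (germ mx grad J ordI Pt edgePt ptc j1 j2 incP ZData germ_eq_ker)

variable {n : ℕ}

/-- the linear functional with given coordinates, as a vector of coefficients -/
noncomputable def lcf (l : ZZ n →ₗ[ℝ] ℝ) : Fin (n + 1) ⊕ Fin (n + 1) → ℝ :=
  Sum.elim (fun i => l (Pi.single i 1, 0)) (fun i => l (0, Pi.single i 1))

theorem sum_lcf (l : ZZ n →ₗ[ℝ] ℝ) (x : ZZ n) :
    ∑ i, lcf l i * (Sum.elim x.1 x.2 : _ → ℝ) i = l x := by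
  rw [lin_apply l x, Fintype.sum_sum_type]
  rfl

/-- `linL l r₀` vanishes on the germ iff `l` kills the direction space -/
theorem map_linL_eq_zero {σ τ : Type*} (φ : MvPolynomial σ ℝ →ₐ[ℝ] MvPowerSeries τ ℝ)
    (j : Fin (n + 1) ⊕ Fin (n + 1) → σ) (r₀ : ZZ n)
    (hr : baseW (fun i => φ (X (j i))) = r₀) (l : ZZ n →ₗ[ℝ] ℝ) :
    φ (rename j (linL l r₀)) = 0 ↔ ∀ x ∈ dirW (fun i => φ (X (j i))), l x = 0 := by
  have e1 : φ (rename j (linL l r₀))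
      = (∑ i, lcf l i • φ (X (j i))) - MvPowerSeries.C (l r₀) := by
    have hC : ∀ a : ℝ, φ (C a) = MvPowerSeries.C a := by
      intro a
      rw [← MvPolynomial.algebraMap_eq, AlgHom.commutes]; rfl
    have hsm : ∀ (a : ℝ) (F : MvPolynomial σ ℝ), φ (C a * F) = a • φ F := by
      intro a F
      rw [← MvPolynomial.smul_eq_C_mul, map_smul]
    rw [linL, map_sub, map_add, map_sub, map_add, rename_C, hC, Fintype.sum_sum_type]
    congr 1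
    congr 1
    · rw [map_sum, map_sum]
      refine Finset.sum_congr rfl fun i _ => ?_
      rw [map_mul, rename_C, rename_X, hsm]
      rfl
    · rw [map_sum, map_sum]
      refine Finset.sum_congr rfl fun i _ => ?_
      rw [map_mul, rename_C, rename_X, hsm]
      rfl
  rw [e1, sub_eq_zero, affineW_iff, hr]
  constructor
  · rintro ⟨-, h⟩ x hx
    have := h x hx
    rwa [sum_lcf] at this
  · intro h
    refine ⟨sum_lcf l r₀, fun x hx => ?_⟩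
    rw [sum_lcf]; exact h x hx

/-- an element killed by all functionals killing `V` is in `V` -/
theorem mem_of_ann (V : Submodule ℝ (ZZ n)) (x : ZZ n)
    (h : ∀ l : ZZ n →ₗ[ℝ] ℝ, (∀ y ∈ V, l y = 0) → l x = 0) : x ∈ V := by
  by_contra hcon
  obtain ⟨f, hf, hf'⟩ := Submodule.exists_le_ker_of_notMem hcon
  exact hf (h f fun y hy => hf' hy)

/-- the direction space of a `Side`, from a germ map -/
theorem side_V_eq {A : Finset (ZZ n × ZZ n)} {Wt D σ v : ℕ} (S : Side n A Wt D σ v)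
    (e : ZZ n × ZZ n) {X' τ : Type*} (φ : MvPolynomial X' ℝ →ₐ[ℝ] MvPowerSeries τ ℝ)
    (j : Fin (n + 1) ⊕ Fin (n + 1) → X') (hr : baseW (fun i => φ (X (j i))) = e.2)
    (hK : ∀ G : MvPolynomial (ZI n) ℝ, φ (rename j G) = 0 ↔ G ∈ S.Pr e) :
    S.V e = dirW (fun i => φ (X (j i))) := by
  ext x
  rw [S.mem_V]
  constructor
  · intro h
    refine mem_of_ann _ x fun l hl => h l ?_
    rw [← hK, map_linL_eq_zero φ j e.2 hr]
    exact hl
  · intro h l hl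
    rw [← hK, map_linL_eq_zero φ j e.2 hr] at hl
    exact hl x h

/-- a germ map and a point: base points -/
theorem baseW_of_const {X' τ : Type*} (φ : MvPolynomial X' ℝ →ₐ[ℝ] MvPowerSeries τ ℝ)
    (j : Fin (n + 1) ⊕ Fin (n + 1) → X') (p : X' → ℝ)
    (hφ0 : ∀ G, MvPowerSeries.constantCoeff (φ G) = eval p G) (s : ZZ n)
    (hs : ∀ i, p (j i) = ptc s i) : baseW (fun i => φ (X (j i))) = s := by
  rw [baseW_eq]
  refine Prod.ext ?_ ?_
  · funext i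
    simp only [hφ0, eval_X, hs]
    rfl
  · funext i
    simp only [hφ0, eval_X, hs]
    rfl

section Edge

variable {E0 E1 E2 : Finset (ZZ n × ZZ n)} {wt : Crd n ⊕ Pt n → ℕ} {N c₀ c₁ c₂ σ₁ σ₂ : ℕ}

/-- the quadric vanishes on the germ of `Z⁺` -/
theorem quadric_zero (Z : ZData ℝ n E0 E1 E2 wt N c₀ c₁ c₂ σ₁ σ₂) {e₀ : ZZ n × ZZ n} (he₀ : e₀ ∈ E2)
    {R : Type*} [CommRing R] [Algebra ℝ R] (φ : MvPolynomial (Crd n ⊕ (Pt n ⊕ Pt n)) ℝ →ₐ[ℝ] R)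
    (hker : ∀ P, P ∈ germ (edgePt e₀.1 e₀.2) Z.F → φ P = 0) :
    φ (∑ i : Fin (n + 1), (X (Sum.inr (Sum.inl (Sum.inl i))) - X (Sum.inr (Sum.inr (Sum.inl i))))
      * (X (Sum.inr (Sum.inl (Sum.inr i))) - X (Sum.inr (Sum.inr (Sum.inr i))))) = 0 := by
  have h1 : ∀ i, φ (rename (j1 n) (incP ℝ n i)) = 0 := fun i => hker _ (Z.inc1 he₀ i)
  have h2 : ∀ i, φ (rename (j2 n) (incP ℝ n i)) = 0 := fun i => hker _ (Z.inc2 he₀ i)
  have a1 : ∀ i : Fin n, φ (X (Sum.inl (Sum.inr (Sum.inl i))))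
      - φ (X (Sum.inr (Sum.inl (Sum.inl i.succ))))
      + φ (X (Sum.inr (Sum.inl (Sum.inl 0)))) * φ (X (Sum.inl (Sum.inl i))) = 0 := by
    intro i
    have := h1 (Sum.inl i)
    simpa [incP, j1] using this
  have a2 : ∀ i : Fin n, φ (X (Sum.inl (Sum.inr (Sum.inl i))))
      - φ (X (Sum.inr (Sum.inr (Sum.inl i.succ))))
      + φ (X (Sum.inr (Sum.inr (Sum.inl 0)))) * φ (X (Sum.inl (Sum.inl i))) = 0 := by
    intro i
    have := h2 (Sum.inl i)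
    simpa [incP, j2] using this
  have b1 : φ (X (Sum.inl (Sum.inr (Sum.inr ())))) + φ (X (Sum.inr (Sum.inl (Sum.inr 0))))
      + ∑ i : Fin n, φ (X (Sum.inr (Sum.inl (Sum.inr i.succ)))) * φ (X (Sum.inl (Sum.inl i)))
      = 0 := by
    have := h1 (Sum.inr ())
    simpa [incP, j1] using this
  have b2 : φ (X (Sum.inl (Sum.inr (Sum.inr ())))) + φ (X (Sum.inr (Sum.inr (Sum.inr 0))))
      + ∑ i : Fin n, φ (X (Sum.inr (Sum.inr (Sum.inr i.succ)))) * φ (X (Sum.inl (Sum.inl i)))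
      = 0 := by
    have := h2 (Sum.inr ())
    simpa [incP, j2] using this
  rw [map_sum, Fin.sum_univ_succ]
  simp only [map_mul, map_sub]
  have c1 : ∀ i : Fin n, φ (X (Sum.inr (Sum.inl (Sum.inl i.succ))))
      - φ (X (Sum.inr (Sum.inr (Sum.inl i.succ))))
      = (φ (X (Sum.inr (Sum.inl (Sum.inl 0)))) - φ (X (Sum.inr (Sum.inr (Sum.inl 0)))))
        * φ (X (Sum.inl (Sum.inl i))) := by
    intro i
    have e1 := a1 i
    have e2 := a2 i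
    linear_combination e2 - e1
  have c2 : ∑ i : Fin n, (φ (X (Sum.inr (Sum.inl (Sum.inl i.succ))))
      - φ (X (Sum.inr (Sum.inr (Sum.inl i.succ)))))
      * (φ (X (Sum.inr (Sum.inl (Sum.inr i.succ)))) - φ (X (Sum.inr (Sum.inr (Sum.inr i.succ)))))
      = (φ (X (Sum.inr (Sum.inl (Sum.inl 0)))) - φ (X (Sum.inr (Sum.inr (Sum.inl 0)))))
        * (∑ i : Fin n, φ (X (Sum.inr (Sum.inl (Sum.inr i.succ)))) * φ (X (Sum.inl (Sum.inl i)))
        - ∑ i : Fin n, φ (X (Sum.inr (Sum.inr (Sum.inr i.succ)))) * φ (X (Sum.inl (Sum.inl i)))) := by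
    rw [← Finset.sum_sub_distrib, Finset.mul_sum]
    refine Finset.sum_congr rfl fun i _ => ?_
    rw [c1 i]; ring
  rw [c2]
  linear_combination (φ (X (Sum.inr (Sum.inl (Sum.inl 0)))) - φ (X (Sum.inr (Sum.inr (Sum.inl 0)))))
    * (b1 - b2)

/-- **[PROD-SIDE]** -/
theorem prod_side (Z : ZData ℝ n E0 E1 E2 wt N c₀ c₁ c₂ σ₁ σ₂) {e : ZZ n × ZZ n} (he : e ∈ E2)
    {A A' : Finset (ZZ n × ZZ n)} {Wt D s₁ s₂ v₁ v₂ Wt' D' : ℕ} (S₁ : Side n A Wt D s₁ v₂)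
    (S₂ : Side n A' Wt' D' s₂ v₁)
    (hK1 : ∀ G : MvPolynomial (ZI n) ℝ, rename (fun x => Sum.inr (Sum.inr x)) G
      ∈ germ (edgePt e.1 e.2) Z.F ↔ G ∈ S₁.Pr e)
    (hK2 : ∀ G : MvPolynomial (ZI n) ℝ, rename (fun x => Sum.inr (Sum.inl x)) G
      ∈ germ (edgePt e.1 e.2) Z.F ↔ G ∈ S₂.Pr e.swap) :
    (∀ a ∈ S₂.V e.swap, ∀ b ∈ S₁.V e, Bf a b = 0) ∧
    (Iso (S₂.V e.swap) → ∀ a ∈ S₂.V e.swap, Bf (e.1 - e.2) a = 0) ∧
    (Iso (S₁.V e) → ∀ b ∈ S₁.V e, Bf (e.1 - e.2) b = 0) := by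
  obtain ⟨m, hm, φ, a, ha, -, hJ, hφ0, hker⟩ := Z.exists_germ he
  let js : Fin (n + 1) ⊕ Fin (n + 1) → Crd n ⊕ (Pt n ⊕ Pt n) := fun x => Sum.inr (Sum.inl x)
  let jr : Fin (n + 1) ⊕ Fin (n + 1) → Crd n ⊕ (Pt n ⊕ Pt n) := fun x => Sum.inr (Sum.inr x)
  have hbr : baseW (fun i => φ (X (jr i))) = e.2 :=
    baseW_of_const φ jr _ hφ0 e.2 (fun i => rfl)
  have hbs : baseW (fun i => φ (X (js i))) = e.1 :=
    baseW_of_const φ js _ hφ0 e.1 (fun i => rfl)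
  have hV1 : S₁.V e = dirW (fun i => φ (X (jr i))) :=
    side_V_eq S₁ e φ jr hbr fun G => by rw [← hker]; exact hK1 G
  have hV2 : S₂.V e.swap = dirW (fun i => φ (X (js i))) :=
    side_V_eq S₂ e.swap φ js hbs fun G => by rw [← hker]; exact hK2 G
  have hinj : Function.Injective (algebraMap (MvPowerSeries (Fin m) ℝ)
      (FractionRing (MvPowerSeries (Fin m) ℝ))) := IsFractionRing.injective _ _
  have hsp := Z.split he hm φ hJ a ha (algebraMap (MvPowerSeries (Fin m) ℝ)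
      (FractionRing (MvPowerSeries (Fin m) ℝ))) hinj
  have hQ := quadric_zero Z he φ fun P hP => (hker P).1 hP
  obtain ⟨V₁, V₂, e1, e2, h1, h2, h3, -⟩ := prod_of_split φ js jr (edgePt e.1 e.2) hφ0 hQ
    (algebraMap (MvPowerSeries (Fin m) ℝ) (FractionRing (MvPowerSeries (Fin m) ℝ))) hinj hsp
  have q1 : toW ℝ n (fun i => edgePt e.1 e.2 (js i)) = e.1 := rfl
  have q2 : toW ℝ n (fun i => edgePt e.1 e.2 (jr i)) = e.2 := rfl
  rw [q1, q2] at h2 h3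
  rw [hV1, hV2, ← e1, ← e2]
  exact ⟨h1, h2, h3⟩

end Edge

section Const

variable {A : Finset (ZZ n × ZZ n)} {Wt D σ v : ℕ} (S : Side n A Wt D σ v)

theorem linL_eq_of (l : ZZ n →ₗ[ℝ] ℝ) (r r' : ZZ n) (h : l r = l r') : linL l r = linL l r' := by
  rw [linL, linL, h]

/-- equal primes of `r`: the point lies in `r₀ + V` -/
theorem sub_mem_V_of_Pr {e e' : ZZ n × ZZ n} (he' : e' ∈ A) (h : S.Pr e = S.Pr e') :
    e'.2 - e.2 ∈ S.V e := by
  intro l hl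
  rw [h] at hl
  have h5 := S.eval_eq_zero_of_mem_Pr he' hl
  rw [eval_linL] at h5
  rw [map_sub]; exact h5

/-- equal primes of `r` give equal direction spaces -/
theorem V_eq_of_Pr {e e' : ZZ n × ZZ n} (he : e ∈ A) (he' : e' ∈ A) (h : S.Pr e = S.Pr e') :
    S.V e = S.V e' := by
  have key : ∀ {e e' : ZZ n × ZZ n}, e ∈ A → e' ∈ A → S.Pr e = S.Pr e' → S.V e ≤ S.V e' := by
    intro e e' he he' h x hx l hl
    apply hx
    have h1 : linL l e'.2 ∈ S.Pr e := by rw [h]; exact hl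
    have h5 := S.eval_eq_zero_of_mem_Pr he h1
    rw [eval_linL, sub_eq_zero] at h5
    rw [linL_eq_of l e.2 e'.2 h5]
    exact h1
  exact le_antisymm (key he he' h) (key he' he h.symm)

end Const

/-- **[K''-Z]** on a class of `Z⁺`: same `Pr`, same `V`, and the points lie in `r + V₂`, `s + V₁` -/
theorem class_Z {E0 E1 E2 : Finset (ZZ n × ZZ n)} {wt : Crd n ⊕ Pt n → ℕ} {N c₀ c₁ c₂ σ₁ σ₂ : ℕ}
    (Z : ZData ℝ n E0 E1 E2 wt N c₀ c₁ c₂ σ₁ σ₂)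
    {A A' : Finset (ZZ n × ZZ n)} {Wt D s₁ s₂ v₁ v₂ Wt' D' : ℕ} (S₁ : Side n A Wt D s₁ v₂)
    (S₂ : Side n A' Wt' D' s₂ v₁) {e e' : ZZ n × ZZ n} (he : e ∈ A) (he' : e' ∈ A)
    (hes : e.swap ∈ A') (hes' : e'.swap ∈ A')
    (hK1 : ∀ x ∈ ({e, e'} : Set _), ∀ G : MvPolynomial (ZI n) ℝ,
      rename (fun x => Sum.inr (Sum.inr x)) G ∈ germ (edgePt x.1 x.2) Z.F ↔ G ∈ S₁.Pr x)
    (hK2 : ∀ x ∈ ({e, e'} : Set _), ∀ G : MvPolynomial (ZI n) ℝ,
      rename (fun x => Sum.inr (Sum.inl x)) G ∈ germ (edgePt x.1 x.2) Z.F ↔ G ∈ S₂.Pr x.swap)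
    (h : germ (edgePt e.1 e.2) Z.F = germ (edgePt e'.1 e'.2) Z.F) :
    S₁.Pr e = S₁.Pr e' ∧ S₂.Pr e.swap = S₂.Pr e'.swap ∧ S₁.V e = S₁.V e' ∧
      S₂.V e.swap = S₂.V e'.swap ∧ e'.2 - e.2 ∈ S₁.V e ∧ e'.1 - e.1 ∈ S₂.V e.swap := by
  have h1 : S₁.Pr e = S₁.Pr e' := by
    ext G
    rw [← hK1 e (by simp) G, ← hK1 e' (by simp) G, h]
  have h2 : S₂.Pr e.swap = S₂.Pr e'.swap := by
    ext G
    rw [← hK2 e (by simp) G, ← hK2 e' (by simp) G, h]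
  exact ⟨h1, h2, V_eq_of_Pr S₁ he he' h1, V_eq_of_Pr S₂ hes hes' h2, sub_mem_V_of_Pr S₁ he' h1,
    sub_mem_V_of_Pr S₂ hes' h2⟩

end Vale.Agent.P054.T2.H981
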