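import Mathlib

/-!
# Bezoutian finiteness (helper981, row [E] of P054/T2)

`K` a field, `R` a domain over `K`, `r : ι → R`, `h i` polynomials of total degree `≤ D + 1`
with `h i (r) = 0` and Jacobian determinant nonzero at `r`.  Then `K[r]` is finite dimensional,
of dimension at most `finrank (restrictTotalDegree ι K (card ι * D))`.
-/

namespace Vale.Agent.P054.T2.H981

open MvPolynomial TensorProduct

variable {ι : Type*} {K : Type*} [Field K]

/-- telescoping for a monomial -/
theorem tele_mon [Fintype ι] [DecidableEq ι] (n : ℕ) : ∀ s : ι →₀ ℕ, s.degree = n →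
    ∃ q : ι → MvPolynomial (ι ⊕ ι) K,
      (∀ j, ∀ m ∈ (q j).support, m.degree < n) ∧
      rename Sum.inl (monomial s (1 : K)) - rename Sum.inr (monomial s (1 : K))
        = ∑ j, (X (Sum.inl j) - X (Sum.inr j)) * q j := by
  induction n with
  | zero =>
    intro s hs
    have : s = 0 := by simpa [Finsupp.degree_eq_zero_iff] using hs
    subst this
    refine ⟨0, by simp, by simp⟩
  | succ n ih =>
    intro s hs
    have hne : s ≠ 0 := by
      rintro rfl
      simp at hs
    obtain ⟨k, hk⟩ := Finsupp.support_nonempty_iff.mpr hne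
    have hk' : s k ≠ 0 := Finsupp.mem_support_iff.mp hk
    set s' : ι →₀ ℕ := s - Finsupp.single k 1 with hs'
    have hss : s = Finsupp.single k 1 + s' := by
      rw [hs', add_comm, tsub_add_cancel_of_le]
      rw [Finsupp.single_le_iff]
      exact Nat.one_le_iff_ne_zero.mpr hk'
    have hdeg : s'.degree = n := by
      have : s.degree = 1 + s'.degree := by
        conv_lhs => rw [hss]
        rw [map_add]
        simp
      omega
    obtain ⟨q, hq1, hq2⟩ := ih s' hdeg
    have hmon : (monomial s (1 : K)) = X k * monomial s' 1 := by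
      rw [X, monomial_mul, ← hss]; simp
    refine ⟨fun j => (if j = k then rename Sum.inl (monomial s' (1 : K)) else 0)
      + X (Sum.inr k) * q j, ?_, ?_⟩
    · intro j m hm
      have hm' := MvPolynomial.support_add hm
      rw [Finset.mem_union] at hm'
      rcases hm' with hm' | hm'
      · split_ifs at hm' with hj
        · rw [rename_monomial] at hm'
          have := support_monomial_subset hm'
          rw [Finset.mem_singleton] at this
          rw [this]
          have h2 : (Finsupp.mapDomain (Sum.inl : ι → ι ⊕ ι) s').degree = s'.degree :=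
            Finsupp.degree_mapDomain Sum.inl s'
          rw [h2]
          omega
        · simp at hm'
      · rw [mul_comm, support_mul_X] at hm'
        obtain ⟨m', hm'1, hm'2⟩ := Finset.mem_map.mp hm'
        have := hq1 j m' hm'1
        rw [← hm'2]
        simp only [addRightEmbedding_apply, map_add, Finsupp.degree_single]
        omega
    · rw [hmon]
      simp only [map_mul, rename_X, mul_add, Finset.sum_add_distrib]
      have e1 : ∑ j, (X (Sum.inl j) - X (Sum.inr j) : MvPolynomial (ι ⊕ ι) K) *
          (if j = k then rename Sum.inl (monomial s' (1 : K)) else 0)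
          = (X (Sum.inl k) - X (Sum.inr k)) * rename Sum.inl (monomial s' (1 : K)) := by
        rw [Finset.sum_eq_single k]
        · simp
        · intro b _ hb; simp [hb]
        · intro h; exact absurd (Finset.mem_univ _) h
      have e2 : ∑ j, (X (Sum.inl j) - X (Sum.inr j) : MvPolynomial (ι ⊕ ι) K) *
          (X (Sum.inr k) * q j) = X (Sum.inr k) * ∑ j, (X (Sum.inl j) - X (Sum.inr j)) * q j := by
        rw [Finset.mul_sum]
        refine Finset.sum_congr rfl fun j _ => by ring
      rw [e1, e2, ← hq2]
      ring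

theorem tele [Fintype ι] [DecidableEq ι] (h : MvPolynomial ι K) (D : ℕ)
    (hD : h.totalDegree ≤ D + 1) :
    ∃ q : ι → MvPolynomial (ι ⊕ ι) K,
      (∀ j, (q j).totalDegree ≤ D) ∧
      rename Sum.inl h - rename Sum.inr h
        = ∑ j, (X (Sum.inl j) - X (Sum.inr j)) * q j := by
  classical
  choose q hq1 hq2 using fun s : ι →₀ ℕ => tele_mon (K := K) s.degree s rfl
  refine ⟨fun j => ∑ s ∈ h.support, C (coeff s h) * q s j, ?_, ?_⟩
  · intro j
    refine (totalDegree_finsetSum _ _).trans ?_
    refine Finset.sup_le fun s hs => ?_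
    refine (totalDegree_mul _ _).trans ?_
    rw [totalDegree_C, zero_add, totalDegree]
    refine Finset.sup_le fun m hm => ?_
    have h1 := hq1 s j m hm
    have h2 : s.degree ≤ D + 1 := by
      have := le_totalDegree hs
      rw [Finsupp.degree_apply]
      exact le_trans this hD
    have h3 : (m.sum fun _ e => e) = m.degree := rfl
    omega
  · have : ∀ p : ι → ι ⊕ ι, rename p h
        = ∑ s ∈ h.support, C (coeff s h) * rename p (monomial s (1 : K)) := by
      intro p
      conv_lhs => rw [h.as_sum]
      rw [map_sum]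
      refine Finset.sum_congr rfl fun s _ => ?_
      rw [rename_monomial, rename_monomial, C_mul_monomial, mul_one]
    rw [this, this, ← Finset.sum_sub_distrib]
    simp_rw [← mul_sub, hq2, Finset.mul_sum]
    rw [Finset.sum_comm]
    refine Finset.sum_congr rfl fun j _ => Finset.sum_congr rfl fun s _ => by ring

/-- on the diagonal the telescoping coefficients are the partial derivatives -/
theorem tele_diag [Fintype ι] [DecidableEq ι] (h : MvPolynomial ι K)
    (q : ι → MvPolynomial (ι ⊕ ι) K)
    (hq : rename Sum.inl h - rename Sum.inr h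
        = ∑ j, (X (Sum.inl j) - X (Sum.inr j)) * q j) (k : ι)
    {R : Type*} [CommRing R] [Algebra K R] (r : ι → R) :
    aeval (Sum.elim r r) (q k) = aeval r (pderiv k h) := by
  have h1 := congrArg (fun F => aeval (Sum.elim r r) (pderiv (Sum.inl k) F)) hq
  simp only [map_sub, map_sum, Derivation.leibniz, smul_eq_mul, map_add, map_mul] at h1
  have e1 : pderiv (Sum.inl k) (rename (Sum.inl : ι → ι ⊕ ι) h)
      = rename Sum.inl (pderiv k h) := by
    exact pderiv_rename Sum.inl_injective k h
  have e2 : pderiv (Sum.inl k) (rename (Sum.inr : ι → ι ⊕ ι) h) = 0 := by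
    refine pderiv_eq_zero_of_notMem_vars ?_
    intro hm
    have := vars_rename _ _ hm
    simp at this
  rw [e1, e2, aeval_rename] at h1
  simp only [map_zero, sub_zero, Sum.elim_comp_inl, aeval_X, Sum.elim_inl, Sum.elim_inr, sub_self,
    zero_mul, zero_add] at h1
  rw [h1, Finset.sum_eq_single k]
  · rw [pderiv_X_self, pderiv_X_of_ne (by simp)]
    simp
  · intro b _ hb
    rw [pderiv_X_of_ne (by simpa using hb), pderiv_X_of_ne (by simp)]
    simp
  · intro hh; exact absurd (Finset.mem_univ _) hh

section Main

variable [Fintype ι] [DecidableEq ι] {R : Type*} [CommRing R] [Algebra K R]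

/-- degree of a determinant -/
theorem det_totalDegree_le {τ : Type*} (M : Matrix ι ι (MvPolynomial τ K)) (D : ℕ)
    (hM : ∀ i j, (M i j).totalDegree ≤ D) :
    M.det.totalDegree ≤ Fintype.card ι * D := by
  rw [Matrix.det_apply]
  refine (totalDegree_finsetSum _ _).trans ?_
  refine Finset.sup_le fun σ _ => ?_
  refine (totalDegree_smul_le _ _).trans ?_
  refine (totalDegree_finsetProd _ _).trans ?_
  refine (Finset.sum_le_sum fun i _ => hM (σ i) i).trans ?_
  simp

/-- the evaluation `X ↦ r ⊗ 1`, `Y ↦ 1 ⊗ r` -/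
noncomputable def th (r : ι → R) : MvPolynomial (ι ⊕ ι) K →ₐ[K] R ⊗[K] R :=
  aeval (Sum.elim (fun j => r j ⊗ₜ[K] (1 : R)) (fun j => (1 : R) ⊗ₜ[K] r j))

omit [Fintype ι] [DecidableEq ι] in
theorem th_inl (r : ι → R) (h : MvPolynomial ι K) :
    th r (rename Sum.inl h) = (aeval r h) ⊗ₜ[K] (1 : R) := by
  have : (th r).comp (rename Sum.inl) =
      (Algebra.TensorProduct.includeLeft : R →ₐ[K] R ⊗[K] R).comp (aeval r) := by
    ext j
    simp [th]
  exact DFunLike.congr_fun this h

omit [Fintype ι] [DecidableEq ι] in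
theorem th_inr (r : ι → R) (h : MvPolynomial ι K) :
    th r (rename Sum.inr h) = (1 : R) ⊗ₜ[K] (aeval r h) := by
  have : (th r).comp (rename Sum.inr) =
      (Algebra.TensorProduct.includeRight : R →ₐ[K] R ⊗[K] R).comp (aeval r) := by
    ext j
    simp [th]
  exact DFunLike.congr_fun this h

omit [Fintype ι] [DecidableEq ι] in
theorem th_mul (r : ι → R) (F : MvPolynomial (ι ⊕ ι) K) :
    Algebra.TensorProduct.lmul' K (S := R) (th r F) = aeval (Sum.elim r r) F := by
  have : (Algebra.TensorProduct.lmul' K (S := R)).comp (th r) = aeval (Sum.elim r r) := by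
    ext j
    rcases j with j | j <;> simp [th]
  exact DFunLike.congr_fun this F

/-- the Bezoutian element `b` of `R ⊗ R` -/
theorem bez_exists (D : ℕ) (r : ι → R) (h : ι → MvPolynomial ι K)
    (hD : ∀ i, (h i).totalDegree ≤ D + 1) (h0 : ∀ i, aeval r (h i) = 0) :
    ∃ B : MvPolynomial (ι ⊕ ι) K, B.totalDegree ≤ Fintype.card ι * D ∧
      (∀ x ∈ Algebra.adjoin K (Set.range r),
        (x ⊗ₜ[K] (1 : R)) * th r B = ((1 : R) ⊗ₜ[K] x) * th r B) ∧
      aeval (Sum.elim r r) B
        = Matrix.det (Matrix.of fun i j => aeval r (pderiv j (h i))) := by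
  choose q hq1 hq2 using fun i => tele (h i) D (hD i)
  set M : Matrix ι ι (MvPolynomial (ι ⊕ ι) K) := Matrix.of fun i j => q i j with hM
  set v : ι → MvPolynomial (ι ⊕ ι) K := fun j => X (Sum.inl j) - X (Sum.inr j) with hv
  set w : ι → MvPolynomial (ι ⊕ ι) K := fun i => rename Sum.inl (h i) - rename Sum.inr (h i)
    with hw
  have hMv : M.mulVec v = w := by
    funext i
    rw [hw, Matrix.mulVec, dotProduct]
    simp only [hM, Matrix.of_apply, hv]
    rw [hq2 i]
    exact Finset.sum_congr rfl fun j _ => mul_comm _ _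
  have hadj : M.det • v = M.adjugate.mulVec w := by
    rw [← hMv, Matrix.mulVec_mulVec, Matrix.adjugate_mul, Matrix.smul_mulVec,
      Matrix.one_mulVec]
  have hthw : ∀ i, th r (w i) = 0 := by
    intro i
    rw [hw]
    simp only [map_sub]
    rw [th_inl, th_inr, h0 i]
    simp
  have hkey : ∀ j, th r (M.det) * (r j ⊗ₜ[K] (1 : R) - (1 : R) ⊗ₜ[K] r j) = 0 := by
    intro j
    have h1 := congrArg (fun F => th r (F j)) hadj
    simp only [Pi.smul_apply, smul_eq_mul, map_mul] at h1
    have h2 : th r (v j) = r j ⊗ₜ[K] (1 : R) - (1 : R) ⊗ₜ[K] r j := by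
      simp [hv, th]
    rw [h2] at h1
    rw [h1, Matrix.mulVec, dotProduct, map_sum]
    refine Finset.sum_eq_zero fun i _ => ?_
    rw [map_mul, hthw, mul_zero]
  refine ⟨M.det, det_totalDegree_le M D (fun i j => hq1 i j), ?_, ?_⟩
  · intro x hx
    induction hx using Algebra.adjoin_induction with
    | mem x hx =>
      obtain ⟨j, rfl⟩ := hx
      have := hkey j
      rw [mul_sub, sub_eq_zero] at this
      rw [mul_comm _ (th r M.det), mul_comm _ (th r M.det)]
      exact this
    | algebraMap a =>
      rw [Algebra.algebraMap_eq_smul_one, TensorProduct.smul_tmul]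
    | add x y _ _ hx hy =>
      rw [TensorProduct.add_tmul, TensorProduct.tmul_add, add_mul, add_mul, hx, hy]
    | mul x y _ _ hx hy =>
      have e1 : ((x * y) ⊗ₜ[K] (1 : R)) = (x ⊗ₜ[K] (1 : R)) * (y ⊗ₜ[K] (1 : R)) := by
        simp
      have e2 : ((1 : R) ⊗ₜ[K] (x * y)) = ((1 : R) ⊗ₜ[K] x) * ((1 : R) ⊗ₜ[K] y) := by
        simp
      rw [e1, e2, mul_assoc, hy, mul_left_comm, hx]
      ring
  · rw [AlgHom.map_det]
    congr 1
    ext i j
    simp only [AlgHom.mapMatrix_apply, Matrix.map_apply, hM, Matrix.of_apply]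
    exact tele_diag (h i) (q i) (hq2 i) j r

/-- **Bezoutian finiteness.** -/
theorem finite_of_jacobian [IsDomain R] (D : ℕ) (r : ι → R) (h : ι → MvPolynomial ι K)
    (hD : ∀ i, (h i).totalDegree ≤ D + 1) (h0 : ∀ i, aeval r (h i) = 0)
    (hJ : Matrix.det (Matrix.of fun i j => aeval r (pderiv j (h i))) ≠ 0) :
    Module.Finite K (Algebra.adjoin K (Set.range r)) ∧
    Module.finrank K (Algebra.adjoin K (Set.range r))
      ≤ Module.finrank K (restrictTotalDegree ι K (Fintype.card ι * D)) := by
  classical
  obtain ⟨B, hB1, hB2, hB3⟩ := bez_exists D r h hD h0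
  have hb : th r B ≠ 0 := by
    intro hb
    rw [← hB3, ← th_mul, hb, map_zero] at hJ
    exact hJ rfl
  set ℬ := Module.Basis.ofVectorSpace K R
  have hex : ∃ i, TensorProduct.equivFinsuppOfBasisLeft ℬ (th r B) i ≠ 0 := by
    by_contra hcon
    push Not at hcon
    have : TensorProduct.equivFinsuppOfBasisLeft ℬ (th r B) = 0 := by
      ext i; exact hcon i
    exact hb ((TensorProduct.equivFinsuppOfBasisLeft ℬ).map_eq_zero_iff.mp this)
  obtain ⟨i, hi⟩ := hex
  -- the functional
  set Ψ : R ⊗[K] R →ₗ[K] R := (Finsupp.lapply i).comp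
    (TensorProduct.equivFinsuppOfBasisLeft ℬ (N := R)).toLinearMap with hΨ
  have hΨt : ∀ x y : R, Ψ (x ⊗ₜ[K] y) = ℬ.repr x i • y := by
    intro x y
    simp [hΨ]
  have hΨr : ∀ (x : R) (t : R ⊗[K] R), Ψ (((1 : R) ⊗ₜ[K] x) * t) = x * Ψ t := by
    intro x t
    induction t using TensorProduct.induction_on with
    | zero => simp
    | tmul a b =>
      rw [Algebra.TensorProduct.tmul_mul_tmul, one_mul, hΨt, hΨt]
      rw [mul_smul_comm]
    | add a b ha hb => rw [mul_add, map_add, map_add, ha, hb, mul_add]
  set c : R := Ψ (th r B) with hc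
  have hc0 : c ≠ 0 := hi
  set W : Submodule K R :=
    (restrictTotalDegree ι K (Fintype.card ι * D)).map (aeval r).toLinearMap with hW
  have hmemW : ∀ x : R, Ψ ((x ⊗ₜ[K] (1 : R)) * th r B) ∈ W := by
    intro x
    have hBs : th r B = ∑ m ∈ B.support, coeff m B • th r (monomial m (1 : K)) := by
      conv_lhs => rw [B.as_sum]
      rw [map_sum]
      refine Finset.sum_congr rfl fun m _ => ?_
      rw [← map_smul, smul_monomial, smul_eq_mul, mul_one]
    rw [hBs, Finset.mul_sum, map_sum]
    refine Submodule.sum_mem _ fun m hm => ?_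
    rw [mul_smul_comm, map_smul]
    refine Submodule.smul_mem _ _ ?_
    -- split the monomial
    have hm2 : m = Finsupp.mapDomain Sum.inl (m.comapDomain Sum.inl Sum.inl_injective.injOn)
        + Finsupp.mapDomain Sum.inr (m.comapDomain Sum.inr Sum.inr_injective.injOn) := by
      ext j
      rcases j with j | j
      · rw [Finsupp.add_apply, Finsupp.mapDomain_apply Sum.inl_injective,
          Finsupp.mapDomain_of_notMem_range _ _ (by simp)]
        simp
      · rw [Finsupp.add_apply, Finsupp.mapDomain_apply Sum.inr_injective,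
          Finsupp.mapDomain_of_notMem_range _ _ (by simp)]
        simp
    have hsplit : monomial m (1 : K) = rename Sum.inl (monomial (m.comapDomain Sum.inl
        Sum.inl_injective.injOn) (1 : K)) * rename Sum.inr (monomial (m.comapDomain Sum.inr
        Sum.inr_injective.injOn) (1 : K)) := by
      rw [rename_monomial, rename_monomial, monomial_mul, one_mul, ← hm2]
    rw [hsplit, map_mul (th r), th_inl, th_inr]
    rw [Algebra.TensorProduct.tmul_mul_tmul, Algebra.TensorProduct.tmul_mul_tmul, hΨt]
    refine Submodule.smul_mem _ _ ?_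
    rw [one_mul, one_mul, hW]
    refine Submodule.mem_map_of_mem ?_
    rw [mem_restrictTotalDegree]
    refine (totalDegree_monomial_le _ _).trans ?_
    have h1 : (m.sum fun _ e => e) ≤ Fintype.card ι * D := (le_totalDegree hm).trans hB1
    refine le_trans ?_ h1
    have h2 := Finsupp.degree_comapDomain_le_of_canonicallyOrderedAdd
      (f := (Sum.inr : ι → ι ⊕ ι)) (hf := Sum.inr_injective.injOn) (x := m)
    exact h2
  -- the injective map
  set A := Algebra.adjoin K (Set.range r) with hA
  let L : A →ₗ[K] W :=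
    { toFun := fun x => ⟨(x : R) * c, by
        have h1 := hmemW (x : R)
        rw [hB2 (x : R) x.2, hΨr] at h1
        exact h1⟩
      map_add' := fun x y => by ext; simp [add_mul]
      map_smul' := fun a x => by ext; simp }
  have hL : Function.Injective L := by
    intro x y hxy
    have : (x : R) * c = (y : R) * c := congrArg Subtype.val hxy
    exact Subtype.ext (mul_right_cancel₀ hc0 this)
  have hfinW : Module.Finite K W := by
    rw [hW]; infer_instance
  refine ⟨Module.Finite.of_injective L hL, ?_⟩
  refine (LinearMap.finrank_le_finrank_of_injective hL).trans ?_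
  rw [hW]
  exact Submodule.finrank_map_le _ _

end Main

end Vale.Agent.P054.T2.H981
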