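import Mathlib
import Vale.Agent.P054.T2.H431.NDCore
import Vale.Agent.P054.T2.H981.Bez

/-!
# `SRank` from a nondegenerate system (helper981, row [E] of P054/T2)

`R` a domain over `k`, `S T` a multiplicative family of subspaces with `1 ∈ S 0`,
`z` generators of `R`, `H i` polynomials in `z` of degree `≤ D + 1` with coefficients in
`S (T i)`, `H i (z) = 0`, Jacobian `≠ 0`.  Then `SRank S ((card ι * D + 1) ^ card ι)`.
-/

namespace Vale.Agent.P054.T2.H981

open MvPolynomial

/-- crude count of the monomials of degree `≤ n` -/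
theorem finrank_restrictTotalDegree_le (ι K : Type*) [Fintype ι] [Field K] (n : ℕ) :
    Module.finrank K (restrictTotalDegree ι K n) ≤ (n + 1) ^ Fintype.card ι := by
  classical
  have h1 : Module.finrank K (restrictTotalDegree ι K n)
      ≤ Module.finrank K (restrictDegree ι K n) :=
    Submodule.finrank_mono (restrictTotalDegree_le_restrictDegree _ _ n)
  refine h1.trans ?_
  have h2 : Module.finrank K (restrictDegree ι K n)
      = Nat.card {s : ι →₀ ℕ | ∀ i, s i ≤ n} :=
    Module.finrank_eq_nat_card_basis (basisRestrictSupport K {s : ι →₀ ℕ | ∀ i, s i ≤ n})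
  rw [h2]
  have h3 : Nat.card {s : ι →₀ ℕ | ∀ i, s i ≤ n} ≤ Nat.card (ι → Fin (n + 1)) := by
    refine Nat.card_le_card_of_injective
      (fun s => fun i => ⟨s.1 i, Nat.lt_succ_of_le (s.2 i)⟩) ?_
    intro s s' hss
    apply Subtype.ext
    ext i
    have := congrFun hss i
    simpa using this
  refine h3.trans ?_
  simp

section

variable {k R : Type*} [Field k] [CommRing R] [IsDomain R] [Algebra k R]

/-- the field of quotients of equal degree -/
noncomputable def K0 (S : ℕ → Submodule k R) (h1 : (1 : R) ∈ S 0)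
    (hmul : ∀ a b (u v : R), u ∈ S a → v ∈ S b → u * v ∈ S (a + b)) :
    Subfield (FractionRing R) where
  carrier := {x | ∃ (T : ℕ) (a b : R), a ∈ S T ∧ b ∈ S T ∧ b ≠ 0 ∧
    x = algebraMap R (FractionRing R) a / algebraMap R (FractionRing R) b}
  mul_mem' := by
    rintro x y ⟨T, a, b, ha, hb, hb0, rfl⟩ ⟨T', a', b', ha', hb', hb0', rfl⟩
    refine ⟨T + T', a * a', b * b', hmul _ _ _ _ ha ha', hmul _ _ _ _ hb hb',
      mul_ne_zero hb0 hb0', ?_⟩
    rw [map_mul, map_mul, div_mul_div_comm]
  one_mem' := ⟨0, 1, 1, h1, h1, one_ne_zero, by simp⟩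
  add_mem' := by
    rintro x y ⟨T, a, b, ha, hb, hb0, rfl⟩ ⟨T', a', b', ha', hb', hb0', rfl⟩
    refine ⟨T + T', a * b' + b * a', b * b', ?_, hmul _ _ _ _ hb hb',
      mul_ne_zero hb0 hb0', ?_⟩
    · exact Submodule.add_mem _ (hmul _ _ _ _ ha hb') (hmul _ _ _ _ hb ha')
    · have e1 : algebraMap R (FractionRing R) b ≠ 0 := by
        simpa using hb0
      have e2 : algebraMap R (FractionRing R) b' ≠ 0 := by
        simpa using hb0'
      rw [map_add, map_mul, map_mul, map_mul, div_add_div _ _ e1 e2]
  zero_mem' := ⟨0, 0, 1, Submodule.zero_mem _, h1, one_ne_zero, by simp⟩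
  neg_mem' := by
    rintro x ⟨T, a, b, ha, hb, hb0, rfl⟩
    exact ⟨T, -a, b, Submodule.neg_mem _ ha, hb, hb0, by rw [map_neg, neg_div]⟩
  inv_mem' := by
    rintro x ⟨T, a, b, ha, hb, hb0, rfl⟩
    by_cases ha0 : a = 0
    · subst ha0
      exact ⟨0, 0, 1, Submodule.zero_mem _, h1, one_ne_zero, by simp⟩
    · exact ⟨T, b, a, hb, ha, ha0, by rw [inv_div]⟩

theorem mem_K0 {S : ℕ → Submodule k R} {h1 : (1 : R) ∈ S 0}
    {hmul : ∀ a b (u v : R), u ∈ S a → v ∈ S b → u * v ∈ S (a + b)} {x : FractionRing R} :
    x ∈ K0 S h1 hmul ↔ ∃ (T : ℕ) (a b : R), a ∈ S T ∧ b ∈ S T ∧ b ≠ 0 ∧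
    x = algebraMap R (FractionRing R) a / algebraMap R (FractionRing R) b := Iff.rfl

/-- common denominators -/
theorem common_denom (S : ℕ → Submodule k R) (h1 : (1 : R) ∈ S 0)
    (hmul : ∀ a b (u v : R), u ∈ S a → v ∈ S b → u * v ∈ S (a + b))
    {n : ℕ} (c : Fin n → FractionRing R) (hc : ∀ i, c i ∈ K0 S h1 hmul) :
    ∃ (T : ℕ) (b : R) (a : Fin n → R), b ≠ 0 ∧ (∀ i, a i ∈ S T) ∧
      ∀ i, c i * algebraMap R (FractionRing R) b = algebraMap R (FractionRing R) (a i) := by
  classical
  choose T a b ha hb hb0 hcab using hc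
  refine ⟨∑ i, T i, ∏ i, b i, fun i => a i * ∏ j ∈ Finset.univ.erase i, b j,
    Finset.prod_ne_zero_iff.2 fun i _ => hb0 i, ?_, ?_⟩
  · intro i
    have h := hmul _ _ _ _ (ha i) (H431.prod_mem_S h1 hmul (Finset.univ.erase i) b T
      fun j _ => hb j)
    rwa [Finset.add_sum_erase _ _ (Finset.mem_univ i)] at h
  · intro i
    have e1 : algebraMap R (FractionRing R) (b i) ≠ 0 := by
      simpa using hb0 i
    rw [hcab i, ← Finset.mul_prod_erase _ _ (Finset.mem_univ i), map_mul, map_mul,
      ← mul_assoc, div_mul_cancel₀ _ e1]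

/-- **[E]** the hypothesis `SRank` of `nd_core`. -/
theorem srank_of_jacobian {ι : Type*} [Fintype ι] [DecidableEq ι]
    (S : ℕ → Submodule k R) (h1 : (1 : R) ∈ S 0)
    (hmul : ∀ a b (u v : R), u ∈ S a → v ∈ S b → u * v ∈ S (a + b))
    (z : ι → R) (hz : Algebra.adjoin k (Set.range z) = ⊤)
    (D : ℕ) (H : ι → MvPolynomial ι R) (T : ι → ℕ)
    (hcoef : ∀ i m, coeff m (H i) ∈ S (T i))
    (hD : ∀ i, (H i).totalDegree ≤ D + 1)
    (h0 : ∀ i, eval z (H i) = 0)
    (hJ : Matrix.det (Matrix.of fun i j => eval z (pderiv j (H i))) ≠ 0) :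
    H431.SRank S ((Fintype.card ι * D + 1) ^ Fintype.card ι) := by
  classical
  set L := FractionRing R with hL
  set F := K0 S h1 hmul with hF
  let φ : R →+* L := algebraMap R L
  have hφ : Function.Injective φ := IsFractionRing.injective R L
  -- a nonzero coefficient of each `H i`
  have hne : ∀ i, ∃ m, coeff m (H i) ≠ 0 := by
    intro i
    by_contra hcon
    push Not at hcon
    have hHi : H i = 0 := by
      ext m; simpa using hcon m
    apply hJ
    refine Matrix.det_eq_zero_of_row_eq_zero i fun j => ?_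
    simp [hHi]
  choose m0 hm0 using hne
  -- the polynomials over `F`
  have hmem : ∀ i m, φ (coeff m (H i)) / φ (coeff (m0 i) (H i)) ∈ F := fun i m =>
    ⟨T i, coeff m (H i), coeff (m0 i) (H i), hcoef i m, hcoef i (m0 i), hm0 i, rfl⟩
  let h : ι → MvPolynomial ι F := fun i =>
    ∑ m ∈ (H i).support, monomial m (⟨φ (coeff m (H i)) / φ (coeff (m0 i) (H i)), hmem i m⟩ : F)
  have hmap : ∀ i, map (algebraMap F L) (h i)
      = C (φ (coeff (m0 i) (H i)))⁻¹ * map φ (H i) := by
    intro i
    have e1 : map φ (H i) = ∑ m ∈ (H i).support, monomial m (φ (coeff m (H i))) := by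
      conv_lhs => rw [(H i).as_sum]
      rw [map_sum]
      exact Finset.sum_congr rfl fun m _ => map_monomial _ _ _
    rw [e1, Finset.mul_sum]
    simp only [h, map_sum, map_monomial]
    refine Finset.sum_congr rfl fun m _ => ?_
    rw [C_mul_monomial]
    congr 1
    change φ (coeff m (H i)) / φ (coeff (m0 i) (H i)) = _
    rw [div_eq_mul_inv, mul_comm]
  let r : ι → L := fun i => φ (z i)
  have hev : ∀ p : MvPolynomial ι R, eval r (map φ p) = φ (eval z p) := by
    intro p
    induction p using MvPolynomial.induction_on with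
    | C a => simp
    | add p q hp hq => rw [map_add, map_add, map_add, map_add, hp, hq]
    | mul_X p i hp => rw [map_mul, map_mul, map_mul, map_mul, hp]; simp [r]
  have hae : ∀ p : MvPolynomial ι F, aeval r p = eval r (map (algebraMap F L) p) := by
    intro p
    rw [eval_map]; rfl
  have hinv : ∀ i, (φ (coeff (m0 i) (H i)))⁻¹ ≠ 0 := fun i =>
    inv_ne_zero (by
      intro hh
      exact hm0 i (hφ (by rw [hh, map_zero])))
  have hdeg : ∀ i, (h i).totalDegree ≤ D + 1 := by
    intro i
    refine (totalDegree_finsetSum _ _).trans (Finset.sup_le fun m hm => ?_)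
    exact (totalDegree_monomial_le _ _).trans ((le_totalDegree hm).trans (hD i))
  have hz0 : ∀ i, aeval r (h i) = 0 := by
    intro i
    rw [hae, hmap, map_mul, hev, h0 i]
    simp
  have hJ' : Matrix.det (Matrix.of fun i j => aeval r (pderiv j (h i))) ≠ 0 := by
    have e : (Matrix.of fun i j => aeval r (pderiv j (h i)))
        = Matrix.of fun i j => (φ (coeff (m0 i) (H i)))⁻¹ *
            (φ.mapMatrix (Matrix.of fun i j => eval z (pderiv j (H i)))) i j := by
      ext i j
      simp only [Matrix.of_apply, RingHom.mapMatrix_apply, Matrix.map_apply]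
      rw [hae, ← pderiv_map, hmap, pderiv_C_mul, map_mul, eval_C, pderiv_map, hev]
    rw [e, Matrix.det_mul_column, ← RingHom.map_det]
    refine mul_ne_zero (Finset.prod_ne_zero_iff.2 fun i _ => hinv i) ?_
    intro hh
    exact hJ (hφ (by rw [hh, map_zero]))
  obtain ⟨hfin, hrank⟩ := finite_of_jacobian (K := F) (R := L) D r h hdeg hz0 hJ'
  -- elements of `R` are in `F[r]`
  have hin : ∀ x : R, φ x ∈ Algebra.adjoin F (Set.range r) := by
    intro x
    have hx : x ∈ Algebra.adjoin k (Set.range z) := by rw [hz]; trivial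
    induction hx using Algebra.adjoin_induction with
    | mem x hx =>
      obtain ⟨j, rfl⟩ := hx
      exact Algebra.subset_adjoin ⟨j, rfl⟩
    | algebraMap c =>
      have hcF : φ (algebraMap k R c) ∈ F := by
        refine ⟨0, algebraMap k R c, 1, ?_, h1, one_ne_zero, by
          rw [map_one, div_one]⟩
        rw [Algebra.algebraMap_eq_smul_one]
        exact Submodule.smul_mem _ _ h1
      exact (Algebra.adjoin F (Set.range r)).algebraMap_mem ⟨_, hcF⟩
    | add x y _ _ hx hy => rw [map_add]; exact add_mem hx hy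
    | mul x y _ _ hx hy => rw [map_mul]; exact mul_mem hx hy
  intro n w hw
  -- linear independence over `F`
  let w' : Fin n → Algebra.adjoin F (Set.range r) := fun i => ⟨φ (w i), hin (w i)⟩
  have hli : LinearIndependent F w' := by
    rw [Fintype.linearIndependent_iff]
    intro c hc i
    have hc' : ∑ i, (c i : L) * φ (w i) = 0 := by
      have h5 := congrArg (Subalgebra.val _) hc
      rw [map_sum, map_zero] at h5
      exact h5
    obtain ⟨T', b, a, hb0, ha, hab⟩ := common_denom S h1 hmul (fun i => (c i : L))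
      (fun i => (c i).2)
    have hsum : ∑ i, a i * w i = 0 := by
      apply hφ
      rw [map_sum, map_zero]
      have : ∑ i, φ (a i * w i) = φ b * ∑ i, (c i : L) * φ (w i) := by
        rw [Finset.mul_sum]
        refine Finset.sum_congr rfl fun i _ => ?_
        rw [map_mul, ← hab i]
        ring
      rw [this, hc', mul_zero]
    have ha0 := hw T' a ha hsum i
    have h2 := hab i
    rw [ha0, map_zero] at h2
    have hb' : φ b ≠ 0 := by
      intro hh
      exact hb0 (hφ (by rw [hh, map_zero]))
    have h3 : (c i : L) = 0 := by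
      rcases mul_eq_zero.mp h2 with h | h
      · exact h
      · exact absurd h hb'
    exact Subtype.ext h3
  have hcard := hli.fintype_card_le_finrank
  rw [Fintype.card_fin] at hcard
  exact hcard.trans (hrank.trans (finrank_restrictTotalDegree_le ι F _))


/-- from finite dimensionality of `K0[z]` to `SRank` -/
theorem srank_fin {ι : Type*} [Fintype ι]
    (S : ℕ → Submodule k R) (h1 : (1 : R) ∈ S 0)
    (hmul : ∀ a b (u v : R), u ∈ S a → v ∈ S b → u * v ∈ S (a + b))
    (z : ι → R) (hz : Algebra.adjoin k (Set.range z) = ⊤)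
    (hfin : Module.Finite (K0 S h1 hmul) (Algebra.adjoin (K0 S h1 hmul)
      (Set.range fun j => algebraMap R (FractionRing R) (z j)))) (D₁ : ℕ)
    (hrank : Module.finrank (K0 S h1 hmul) (Algebra.adjoin (K0 S h1 hmul)
      (Set.range fun j => algebraMap R (FractionRing R) (z j))) ≤ D₁) :
    H431.SRank S D₁ := by
  classical
  have hφ : Function.Injective (algebraMap R (FractionRing R)) := IsFractionRing.injective R _
  have hin : ∀ x : R, algebraMap R (FractionRing R) x ∈ Algebra.adjoin (K0 S h1 hmul)
      (Set.range fun j => algebraMap R (FractionRing R) (z j)) := by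
    intro x
    have hx : x ∈ Algebra.adjoin k (Set.range z) := by rw [hz]; trivial
    induction hx using Algebra.adjoin_induction with
    | mem x hx =>
      obtain ⟨j, rfl⟩ := hx
      exact Algebra.subset_adjoin ⟨j, rfl⟩
    | algebraMap c =>
      have hcF : algebraMap R (FractionRing R) (algebraMap k R c) ∈ K0 S h1 hmul := by
        refine ⟨0, algebraMap k R c, 1, ?_, h1, one_ne_zero, by
          rw [map_one, div_one]⟩
        rw [Algebra.algebraMap_eq_smul_one]
        exact Submodule.smul_mem _ _ h1
      exact (Algebra.adjoin (K0 S h1 hmul) (Set.range fun j => algebraMap R (FractionRing R) (z j))).algebraMap_mem ⟨_, hcF⟩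
    | add x y _ _ hx hy => rw [map_add]; exact add_mem hx hy
    | mul x y _ _ hx hy => rw [map_mul]; exact mul_mem hx hy
  intro n w hw
  let w' : Fin n → Algebra.adjoin (K0 S h1 hmul)
      (Set.range fun j => algebraMap R (FractionRing R) (z j)) :=
    fun i => ⟨algebraMap R (FractionRing R) (w i), hin (w i)⟩
  have hli : LinearIndependent (K0 S h1 hmul) w' := by
    rw [Fintype.linearIndependent_iff]
    intro c hc i
    have hc' : ∑ i, (c i : FractionRing R) * algebraMap R (FractionRing R) (w i) = 0 := by
      have h5 := congrArg (Subalgebra.val _) hc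
      rw [map_sum, map_zero] at h5
      exact h5
    obtain ⟨T', b, a, hb0, ha, hab⟩ := common_denom S h1 hmul (fun i => (c i : FractionRing R))
      (fun i => (c i).2)
    have hsum : ∑ i, a i * w i = 0 := by
      apply hφ
      rw [map_sum, map_zero]
      have : ∑ i, algebraMap R (FractionRing R) (a i * w i) = algebraMap R (FractionRing R) b * ∑ i, (c i : FractionRing R) * algebraMap R (FractionRing R) (w i) := by
        rw [Finset.mul_sum]
        refine Finset.sum_congr rfl fun i _ => ?_
        rw [map_mul, ← hab i]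
        ring
      rw [this, hc', mul_zero]
    have ha0 := hw T' a ha hsum i
    have h2 := hab i
    rw [ha0, map_zero] at h2
    have hb' : algebraMap R (FractionRing R) b ≠ 0 := by
      intro hh
      exact hb0 (hφ (by rw [hh, map_zero]))
    have h3 : (c i : FractionRing R) = 0 := by
      rcases mul_eq_zero.mp h2 with h | h
      · exact h
      · exact absurd h hb'
    exact Subtype.ext h3
  have hcard := hli.fintype_card_le_finrank
  rw [Fintype.card_fin] at hcard
  exact hcard.trans hrank

/-- core form: the equations have coefficients in the field `K0` itself -/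
theorem srank_core {ι : Type*} [Fintype ι] [DecidableEq ι]
    (S : ℕ → Submodule k R) (h1 : (1 : R) ∈ S 0)
    (hmul : ∀ a b (u v : R), u ∈ S a → v ∈ S b → u * v ∈ S (a + b))
    (z : ι → R) (hz : Algebra.adjoin k (Set.range z) = ⊤)
    (D : ℕ) (h : ι → MvPolynomial ι (K0 S h1 hmul))
    (hdeg : ∀ i, (h i).totalDegree ≤ D + 1)
    (h0 : ∀ i, aeval (fun j => algebraMap R (FractionRing R) (z j)) (h i) = 0)
    (hJ : Matrix.det (Matrix.of fun i j =>
      aeval (fun j => algebraMap R (FractionRing R) (z j)) (pderiv j (h i))) ≠ 0) :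
    H431.SRank S ((Fintype.card ι * D + 1) ^ Fintype.card ι) := by
  classical
  obtain ⟨hfin, hrank⟩ := finite_of_jacobian (K := K0 S h1 hmul) (R := FractionRing R) D
    (fun j => algebraMap R (FractionRing R) (z j)) h hdeg h0 hJ
  refine srank_fin S h1 hmul z hz hfin _ (hrank.trans ?_)
  exact finrank_restrictTotalDegree_le ι _ _

/-- **[E'] bidegree form.**  `u a = y a / x0` with `x0, y a ∈ S 1`; the equations
`h i ∈ k[u, r]` have degree `≤ D + 1` in `r` (no bound in `u` is needed), vanish at `(u, z)`,
and have nonzero Jacobian in `r`. -/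
theorem srank_of_bidegree {ι κ : Type*} [Fintype ι] [DecidableEq ι]
    (S : ℕ → Submodule k R) (h1 : (1 : R) ∈ S 0)
    (hmul : ∀ a b (u v : R), u ∈ S a → v ∈ S b → u * v ∈ S (a + b))
    (x0 : R) (hx0 : x0 ∈ S 1) (hx0' : x0 ≠ 0) (y : κ → R) (hy : ∀ a, y a ∈ S 1)
    (z : ι → R) (hz : Algebra.adjoin k (Set.range z) = ⊤)
    (D : ℕ) (h : ι → MvPolynomial (κ ⊕ ι) k)
    (hD : ∀ i, ∀ m ∈ (h i).support, ∑ j, m (Sum.inr j) ≤ D + 1)
    (K : Type*) [Field K] [Algebra k K] (ψ : R →ₐ[k] K) (hψ : Function.Injective ψ)
    (h0 : ∀ i, aeval (Sum.elim (fun a => ψ (y a) / ψ x0) (fun j => ψ (z j))) (h i) = 0)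
    (hJ : Matrix.det (Matrix.of fun i j =>
      aeval (Sum.elim (fun a => ψ (y a) / ψ x0) (fun j => ψ (z j)))
        (pderiv (Sum.inr j) (h i))) ≠ 0) :
    H431.SRank S ((Fintype.card ι * D + 1) ^ Fintype.card ι) := by
  classical
  set L := FractionRing R with hL
  set F := K0 S h1 hmul with hF
  let φ : R →+* L := algebraMap R L
  have hφ : Function.Injective φ := IsFractionRing.injective R L
  -- the embedding of `L` in `K`
  let θ : L →+* K := IsFractionRing.lift (A := R) (K := L) (g := ψ.toRingHom) hψ
  have hθ : ∀ x : R, θ (φ x) = ψ x := fun x =>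
    IsFractionRing.lift_algebraMap (A := R) (K := L) (g := ψ.toRingHom) hψ x
  have hθinj : Function.Injective θ := θ.injective
  have hkF : ∀ c : k, φ (algebraMap k R c) ∈ F := by
    intro c
    refine ⟨0, algebraMap k R c, 1, ?_, h1, one_ne_zero, by rw [map_one, div_one]⟩
    rw [Algebra.algebraMap_eq_smul_one]
    exact Submodule.smul_mem _ _ h1
  let kF : k →+* F := (φ.comp (algebraMap k R)).codRestrict F hkF
  let uF : κ → F := fun a => ⟨φ (y a) / φ x0, ⟨1, y a, x0, hy a, hx0, hx0', rfl⟩⟩
  let Θ : MvPolynomial (κ ⊕ ι) k →+* MvPolynomial ι F :=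
    eval₂Hom (C.comp kF) (Sum.elim (fun a => C (uF a)) X)
  have hmon : ∀ (m : κ ⊕ ι →₀ ℕ) (c : k), ∃ b : F, Θ (monomial m c)
      = C b * monomial (m.comapDomain Sum.inr Sum.inr_injective.injOn) 1 := by
    intro m c
    have hm2 : m = Finsupp.mapDomain Sum.inl (m.comapDomain Sum.inl Sum.inl_injective.injOn)
        + Finsupp.mapDomain Sum.inr (m.comapDomain Sum.inr Sum.inr_injective.injOn) := by
      ext j
      rcases j with j | j
      · rw [Finsupp.add_apply, Finsupp.mapDomain_apply Sum.inl_injective,
          Finsupp.mapDomain_of_notMem_range _ _ (by simp)]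
        simp
      · rw [Finsupp.add_apply, Finsupp.mapDomain_apply Sum.inr_injective,
          Finsupp.mapDomain_of_notMem_range _ _ (by simp)]
        simp
    have hsplit : monomial m c = rename Sum.inl (monomial (m.comapDomain Sum.inl
        Sum.inl_injective.injOn) c) * rename Sum.inr (monomial (m.comapDomain Sum.inr
        Sum.inr_injective.injOn) (1 : k)) := by
      rw [rename_monomial, rename_monomial, monomial_mul, mul_one, ← hm2]
    rw [hsplit, map_mul]
    have e1 : ∀ p : MvPolynomial κ k, Θ (rename Sum.inl p) = C (eval₂ kF uF p) := by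
      intro p
      induction p using MvPolynomial.induction_on with
      | C a => simp [Θ]
      | add p q hp hq => rw [map_add, map_add, hp, hq, eval₂_add, map_add]
      | mul_X p i hp => rw [map_mul, map_mul, hp, eval₂_mul, eval₂_X, map_mul, rename_X]
                        simp [Θ]
    have e2 : ∀ p : MvPolynomial ι k, Θ (rename Sum.inr p) = map kF p := by
      intro p
      induction p using MvPolynomial.induction_on with
      | C a => simp [Θ]
      | add p q hp hq => rw [map_add, map_add, hp, hq, map_add]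
      | mul_X p i hp => rw [map_mul, map_mul, hp, map_mul, rename_X, map_X]
                        simp [Θ]
    rw [e1, e2, map_monomial, map_one]
    exact ⟨_, rfl⟩
  have hdeg : ∀ i, (Θ (h i)).totalDegree ≤ D + 1 := by
    intro i
    rw [(h i).as_sum, map_sum]
    refine (totalDegree_finsetSum _ _).trans (Finset.sup_le fun m hm => ?_)
    obtain ⟨b, hb⟩ := hmon m (coeff m (h i))
    rw [hb]
    refine (totalDegree_mul _ _).trans ?_
    rw [totalDegree_C, zero_add]
    refine (totalDegree_monomial_le _ _).trans ?_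
    have h2 : ((m.comapDomain Sum.inr Sum.inr_injective.injOn).sum fun _ => id)
        = ∑ j, m (Sum.inr j) := by
      rw [Finsupp.sum_fintype _ _ (fun _ => rfl)]
      rfl
    rw [h2]
    exact hD i m hm
  have hkF' : ∀ c : k, θ ((kF c : F) : L) = algebraMap k K c := by
    intro c
    change θ (φ (algebraMap k R c)) = _
    rw [hθ, AlgHom.commutes]
  -- evaluation
  have hev : ∀ p : MvPolynomial (κ ⊕ ι) k,
      θ (aeval (fun j => φ (z j)) (Θ p))
        = aeval (Sum.elim (fun a => ψ (y a) / ψ x0) (fun j => ψ (z j))) p := by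
    intro p
    induction p using MvPolynomial.induction_on with
    | C a =>
      simp only [Θ, coe_eval₂Hom, eval₂_C, RingHom.comp_apply, algHom_C]
      exact hkF' a
    | add p q hp hq => simp only [map_add, hp, hq]
    | mul_X p i hp =>
      rw [map_mul, map_mul, map_mul, map_mul, hp, aeval_X]
      congr 1
      rcases i with i | i
      · simp only [Θ, coe_eval₂Hom, eval₂_X, Sum.elim_inl, aeval_C]
        change θ (φ (y i) / φ x0) = _
        rw [map_div₀, hθ, hθ]
      · simp only [Θ, coe_eval₂Hom, eval₂_X, Sum.elim_inr, aeval_X]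
        exact hθ _
  have hder : ∀ (j : ι) (p : MvPolynomial (κ ⊕ ι) k),
      pderiv j (Θ p) = Θ (pderiv (Sum.inr j) p) := by
    intro j p
    induction p using MvPolynomial.induction_on with
    | C a =>
      simp only [Θ, coe_eval₂Hom, eval₂_C, RingHom.comp_apply, pderiv_C, map_zero]
    | add p q hp hq => simp only [map_add, hp, hq]
    | mul_X p i hp =>
      rw [map_mul, Derivation.leibniz, Derivation.leibniz, hp, map_add, smul_eq_mul,
        smul_eq_mul, smul_eq_mul, smul_eq_mul, map_mul, map_mul]
      congr 2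
      rcases i with i | i
      · rw [pderiv_X_of_ne (by simp), map_zero]
        simp only [Θ, coe_eval₂Hom, eval₂_X, Sum.elim_inl, pderiv_C]
      · by_cases hij : i = j
        · subst hij
          rw [pderiv_X_self, map_one]
          simp only [Θ, coe_eval₂Hom, eval₂_X, Sum.elim_inr, pderiv_X_self]
        · rw [pderiv_X_of_ne (by simpa using hij), map_zero]
          simp only [Θ, coe_eval₂Hom, eval₂_X, Sum.elim_inr]
          rw [pderiv_X_of_ne hij]
  refine srank_core S h1 hmul z hz D (fun i => Θ (h i)) hdeg ?_ ?_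
  · intro i
    apply hθinj
    rw [map_zero]
    exact (hev (h i)).trans (h0 i)
  · intro hdet
    apply hJ
    have e : (Matrix.of fun i j =>
      aeval (Sum.elim (fun a => ψ (y a) / ψ x0) (fun j => ψ (z j)))
        (pderiv (Sum.inr j) (h i)))
        = θ.mapMatrix (Matrix.of fun i j =>
            aeval (fun j => algebraMap R (FractionRing R) (z j)) (pderiv j (Θ (h i)))) := by
      ext i j
      simp only [Matrix.of_apply, RingHom.mapMatrix_apply, Matrix.map_apply]
      rw [hder]
      exact (hev _).symm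
    rw [e, ← RingHom.map_det, hdet, map_zero]

end

end Vale.Agent.P054.T2.H981
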