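import Mathlib.RingTheory.MvPowerSeries.Derivative
import Mathlib.RingTheory.MvPowerSeries.NoZeroDivisors
import Mathlib.LinearAlgebra.BilinearMap
import Mathlib.RingTheory.Derivation.Lie
import Mathlib.RingTheory.Localization.FractionRing
import Mathlib.RingTheory.Localization.Integer
import Mathlib.Tactic

set_option autoImplicit false
set_option linter.unusedSectionVars false

/-!
# P054 / T2, leaf [PROD]: product structure of a germ of edges
-/

namespace Vale.Agent.P054.T2.H981

/-! ### abstract lemma: `𝒟 = 𝒟₁ + 𝒟₂` up to multiples, `𝒟₁ r = 0`, `𝒟₂ s = 0` -/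

section Abs

variable {k R : Type*} [CommRing k] [CommRing R] [Algebra k R] {ι : Type*}

/-- action of a derivation on vectors -/
def act (D : Derivation k R R) (v : ι → R) : ι → R := fun i => D (v i)

@[simp] theorem act_apply (D : Derivation k R R) (v : ι → R) (i : ι) : act D v i = D (v i) := rfl

theorem act_add (D : Derivation k R R) (u v : ι → R) : act D (u + v) = act D u + act D v := by
  funext i; simp

theorem act_sub (D : Derivation k R R) (u v : ι → R) : act D (u - v) = act D u - act D v := by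
  funext i; simp

theorem act_smul (D : Derivation k R R) (h : R) (v : ι → R) :
    act D (h • v) = D h • v + h • act D v := by
  funext i; simp [mul_comm]; ring

theorem act_zero (D : Derivation k R R) : act D (0 : ι → R) = 0 := by
  funext i; simp

theorem smul_act (D : Derivation k R R) (h : R) (v : ι → R) : act (h • D) v = h • act D v := by
  funext i; simp

theorem add_act (D E : Derivation k R R) (v : ι → R) : act (D + E) v = act D v + act E v := by
  funext i; simp

theorem bracket_act (D E : Derivation k R R) (v : ι → R) :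
    act ⁅D, E⁆ v = act D (act E v) - act E (act D v) := by
  funext i; simp [Derivation.commutator_apply]

theorem br_smul (c : R) (D E : Derivation k R R) : ⁅D, c • E⁆ = D c • E + c • ⁅D, E⁆ := by
  ext a
  rw [Derivation.commutator_apply, Derivation.add_apply, Derivation.smul_apply,
    Derivation.smul_apply, Derivation.smul_apply, Derivation.smul_apply,
    Derivation.commutator_apply, smul_eq_mul, smul_eq_mul, smul_eq_mul, smul_eq_mul,
    Derivation.leibniz, smul_eq_mul, smul_eq_mul]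
  ring

theorem smul_br (c : R) (D E : Derivation k R R) : ⁅c • D, E⁆ = c • ⁅D, E⁆ - E c • D := by
  ext a
  rw [Derivation.commutator_apply, Derivation.sub_apply, Derivation.smul_apply,
    Derivation.smul_apply, Derivation.smul_apply, Derivation.smul_apply,
    Derivation.commutator_apply, smul_eq_mul, smul_eq_mul, smul_eq_mul, smul_eq_mul,
    Derivation.leibniz, smul_eq_mul, smul_eq_mul]
  ring

theorem br_add (D E F : Derivation k R R) : ⁅D, E + F⁆ = ⁅D, E⁆ + ⁅D, F⁆ := by
  ext a
  rw [Derivation.commutator_apply, Derivation.add_apply, Derivation.add_apply,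
    Derivation.add_apply, Derivation.commutator_apply, Derivation.commutator_apply, map_add]
  ring

theorem add_br (D E F : Derivation k R R) : ⁅D + E, F⁆ = ⁅D, F⁆ + ⁅E, F⁆ := by
  ext a
  rw [Derivation.commutator_apply, Derivation.add_apply, Derivation.add_apply,
    Derivation.add_apply, Derivation.commutator_apply, Derivation.commutator_apply, map_add]
  ring

theorem br_zero (D : Derivation k R R) : ⁅D, (0 : Derivation k R R)⁆ = 0 := by
  ext a
  rw [Derivation.commutator_apply, Derivation.zero_apply, Derivation.zero_apply, map_zero,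
    sub_zero]

theorem zero_br (D : Derivation k R R) : ⁅(0 : Derivation k R R), D⁆ = 0 := by
  ext a
  rw [Derivation.commutator_apply, Derivation.zero_apply, Derivation.zero_apply, map_zero,
    sub_zero]

/-- `P` is a saturated, `𝒟₁`-stable submodule containing `𝒟₁ s` -/
structure Good (𝒟₁ : Set (Derivation k R R)) (s : ι → R) (P : Submodule R (ι → R)) : Prop where
  sat : ∀ h : R, h ≠ 0 → ∀ v, h • v ∈ P → v ∈ P
  base : ∀ D ∈ 𝒟₁, act D s ∈ P
  stab : ∀ D ∈ 𝒟₁, ∀ v ∈ P, act D v ∈ P

theorem good_sInf (𝒟₁ : Set (Derivation k R R)) (s : ι → R) :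
    Good 𝒟₁ s (sInf {P | Good 𝒟₁ s P}) := by
  refine ⟨fun h hh v hv => ?_, fun D hD => ?_, fun D hD v hv => ?_⟩
  · rw [Submodule.mem_sInf] at hv ⊢
    exact fun P hP => (show Good 𝒟₁ s P from hP).sat h hh v (hv P hP)
  · rw [Submodule.mem_sInf]
    exact fun P hP => (show Good 𝒟₁ s P from hP).base D hD
  · rw [Submodule.mem_sInf] at hv ⊢
    exact fun P hP => (show Good 𝒟₁ s P from hP).stab D hD v (hv P hP)

/-- **[PROD], abstract.** -/
theorem prod_abs [NoZeroDivisors R] (𝒟 : Set (Derivation k R R))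
    (hbr : ∀ D ∈ 𝒟, ∀ E ∈ 𝒟, ⁅D, E⁆ ∈ 𝒟) (s r : ι → R)
    (hdec : ∀ D ∈ 𝒟, ∃ h : R, h ≠ 0 ∧ ∃ D₁ ∈ 𝒟, ∃ D₂ ∈ 𝒟, h • D = D₁ + D₂ ∧
      act D₁ r = 0 ∧ act D₂ s = 0)
    (B : (ι → R) →ₗ[R] (ι → R) →ₗ[R] R) (hsymm : ∀ u v, B u v = B v u)
    (hB : ∀ D : Derivation k R R, ∀ u v, D (B u v) = B (act D u) v + B u (act D v))
    (h2 : (2 : R) ≠ 0) (hQ : B (s - r) (s - r) = 0) :
    ∃ X : Submodule R (ι → R), (∀ D ∈ 𝒟, act D s ∈ X) ∧ (∀ D ∈ 𝒟, ∀ v ∈ X, act D v ∈ X) ∧
      ∀ D ∈ 𝒟, ∀ v ∈ X, B v (act D r) = 0 := by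
  set 𝒟₁ : Set (Derivation k R R) := {D | D ∈ 𝒟 ∧ act D r = 0} with h𝒟₁
  set 𝒟₂ : Set (Derivation k R R) := {D | D ∈ 𝒟 ∧ act D s = 0} with h𝒟₂
  have hdec' : ∀ D ∈ 𝒟, ∃ h : R, h ≠ 0 ∧ ∃ D₁ ∈ 𝒟₁, ∃ D₂ ∈ 𝒟₂, h • D = D₁ + D₂ := by
    intro D hD
    obtain ⟨h, hh, D₁, h1, D₂, h2, e, e1, e2⟩ := hdec D hD
    exact ⟨h, hh, D₁, ⟨h1, e1⟩, D₂, ⟨h2, e2⟩, e⟩
  set X := sInf {P | Good 𝒟₁ s P} with hX
  have hXg : Good 𝒟₁ s X := good_sInf 𝒟₁ s
  have hXmin : ∀ P : Submodule R (ι → R), Good 𝒟₁ s P → X ≤ P := fun P hP => sInf_le hP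
  -- `X` is `𝒟₂`-stable
  have hX2 : ∀ v ∈ X, ∀ D ∈ 𝒟₂, act D v ∈ X := by
    let P : Submodule R (ι → R) :=
      { carrier := {v | v ∈ X ∧ ∀ D ∈ 𝒟₂, act D v ∈ X}
        add_mem' := by
          rintro u v ⟨hu, hu'⟩ ⟨hv, hv'⟩
          exact ⟨X.add_mem hu hv, fun D hD => by
            rw [act_add]; exact X.add_mem (hu' D hD) (hv' D hD)⟩
        zero_mem' := ⟨X.zero_mem, fun D _ => by rw [act_zero]; exact X.zero_mem⟩
        smul_mem' := by
          rintro c v ⟨hv, hv'⟩
          exact ⟨X.smul_mem c hv, fun D hD => by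
            rw [act_smul]; exact X.add_mem (X.smul_mem _ hv) (X.smul_mem _ (hv' D hD))⟩ }
    have hmem : ∀ v, v ∈ P ↔ v ∈ X ∧ ∀ D ∈ 𝒟₂, act D v ∈ X := fun v => Iff.rfl
    have hP : Good 𝒟₁ s P := by
      refine ⟨fun h hh v hv => ?_, fun D hD => ?_, fun D hD v hv => ?_⟩
      · rw [hmem] at hv ⊢
        have hvX : v ∈ X := hXg.sat h hh v hv.1
        refine ⟨hvX, fun D hD => hXg.sat h hh _ ?_⟩
        have e1 := hv.2 D hD
        rw [act_smul] at e1
        have e2 := X.sub_mem e1 (X.smul_mem (D h) hvX)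
        rwa [add_sub_cancel_left] at e2
      · rw [hmem]
        refine ⟨hXg.base D hD, fun E hE => ?_⟩
        obtain ⟨h, hh, D₁, hD₁, D₂, hD₂, e⟩ := hdec' _ (hbr E hE.1 D hD.1)
        refine hXg.sat h hh _ ?_
        have e1 : act E (act D s) = act ⁅E, D⁆ s := by
          rw [bracket_act, hE.2, act_zero, sub_zero]
        rw [e1, ← smul_act, e, add_act, hD₂.2, add_zero]
        exact hXg.base D₁ hD₁
      · rw [hmem] at hv ⊢
        refine ⟨hXg.stab D hD v hv.1, fun E hE => ?_⟩
        obtain ⟨h, hh, D₁, hD₁, D₂, hD₂, e⟩ := hdec' _ (hbr E hE.1 D hD.1)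
        have e1 : act E (act D v) = act D (act E v) + act ⁅E, D⁆ v := by
          rw [bracket_act]; abel
        rw [e1]
        refine X.add_mem (hXg.stab D hD _ (hv.2 E hE)) (hXg.sat h hh _ ?_)
        rw [← smul_act, e, add_act]
        exact X.add_mem (hXg.stab D₁ hD₁ v hv.1) (hv.2 D₂ hD₂)
    intro v hv D hD
    exact (hXmin P hP hv).2 D hD
  -- `B (D₁ s) (s - r) = 0`
  have hs1 : ∀ D ∈ 𝒟₁, B (act D s) (s - r) = 0 := by
    intro D hD
    have e1 := hB D (s - r) (s - r)
    rw [hQ, map_zero, act_sub, hD.2, sub_zero, hsymm (s - r) (act D s), ← two_mul] at e1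
    exact (mul_eq_zero.1 e1.symm).resolve_left h2
  -- `B (D₁ s) (D₂ r) = 0`
  have hs2 : ∀ D ∈ 𝒟₁, ∀ E ∈ 𝒟₂, B (act D s) (act E r) = 0 := by
    intro D hD E hE
    have e1 := hB E (act D s) (s - r)
    rw [hs1 D hD, map_zero, act_sub, hE.2, zero_sub, map_neg] at e1
    have e2 : act E (act D s) = act ⁅E, D⁆ s := by
      rw [bracket_act, hE.2, act_zero, sub_zero]
    obtain ⟨h, hh, D₁, hD₁, D₂, hD₂, e⟩ := hdec' _ (hbr E hE.1 D hD.1)
    have e3 : h * B (act E (act D s)) (s - r) = 0 := by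
      rw [e2, ← smul_eq_mul, ← LinearMap.smul_apply, ← map_smul, ← smul_act, e, add_act, hD₂.2,
        add_zero]
      exact hs1 D₁ hD₁
    have e4 := (mul_eq_zero.1 e3).resolve_left hh
    rw [e4, zero_add] at e1
    exact neg_eq_zero.1 e1.symm
  -- `X ⊥ 𝒟₂ r`
  have hXN : ∀ v ∈ X, ∀ E ∈ 𝒟₂, B v (act E r) = 0 := by
    let N : Submodule R (ι → R) :=
      { carrier := {v | ∀ E ∈ 𝒟₂, B v (act E r) = 0}
        add_mem' := by
          intro u v hu hv E hE
          rw [map_add, LinearMap.add_apply, hu E hE, hv E hE, add_zero]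
        zero_mem' := by
          intro E hE
          rw [map_zero, LinearMap.zero_apply]
        smul_mem' := by
          intro c v hv E hE
          rw [map_smul, LinearMap.smul_apply, hv E hE, smul_zero] }
    have hmem : ∀ v, v ∈ N ↔ ∀ E ∈ 𝒟₂, B v (act E r) = 0 := fun v => Iff.rfl
    have hN : Good 𝒟₁ s N := by
      refine ⟨fun h hh v hv => ?_, fun D hD => ?_, fun D hD v hv => ?_⟩
      · rw [hmem] at hv ⊢
        intro E hE
        have e1 := hv E hE
        rw [map_smul, LinearMap.smul_apply, smul_eq_mul] at e1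
        exact (mul_eq_zero.1 e1).resolve_left hh
      · rw [hmem]
        exact fun E hE => hs2 D hD E hE
      · rw [hmem] at hv ⊢
        intro E hE
        have e1 := hB D v (act E r)
        rw [hv E hE, map_zero] at e1
        have e2 : act D (act E r) = act ⁅D, E⁆ r := by
          rw [bracket_act, hD.2, act_zero, sub_zero]
        obtain ⟨h, hh, D₁, hD₁, D₂, hD₂, e⟩ := hdec' _ (hbr D hD.1 E hE.1)
        have e3 : h * B v (act D (act E r)) = 0 := by
          rw [e2, ← smul_eq_mul, ← map_smul, ← smul_act, e, add_act, hD₁.2, zero_add]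
          exact hv D₂ hD₂
        have e4 := (mul_eq_zero.1 e3).resolve_left hh
        rw [e4, add_zero] at e1
        exact e1.symm
    intro v hv
    exact hXmin N hN hv
  refine ⟨X, fun D hD => ?_, fun D hD v hv => ?_, fun D hD v hv => ?_⟩
  · obtain ⟨h, hh, D₁, hD₁, D₂, hD₂, e⟩ := hdec' D hD
    refine hXg.sat h hh _ ?_
    rw [← smul_act, e, add_act, hD₂.2, add_zero]
    exact hXg.base D₁ hD₁
  · obtain ⟨h, hh, D₁, hD₁, D₂, hD₂, e⟩ := hdec' D hD
    refine hXg.sat h hh _ ?_
    rw [← smul_act, e, add_act]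
    exact X.add_mem (hXg.stab D₁ hD₁ v hv) (hX2 v hv D₂ hD₂)
  · obtain ⟨h, hh, D₁, hD₁, D₂, hD₂, e⟩ := hdec' D hD
    have e3 : h * B v (act D r) = 0 := by
      rw [← smul_eq_mul, ← map_smul, ← smul_act, e, add_act, hD₁.2, zero_add]
      exact hXN v hv D₂ hD₂
    exact (mul_eq_zero.1 e3).resolve_left hh

/-- the orthogonal of a `𝒟`-stable submodule is `𝒟`-stable -/
theorem orth_stable (𝒟 : Set (Derivation k R R)) (X : Submodule R (ι → R))
    (hX : ∀ D ∈ 𝒟, ∀ v ∈ X, act D v ∈ X)
    (B : (ι → R) →ₗ[R] (ι → R) →ₗ[R] R)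
    (hB : ∀ D : Derivation k R R, ∀ u v, D (B u v) = B (act D u) v + B u (act D v))
    (u : ι → R) (hu : ∀ v ∈ X, B v u = 0) (D : Derivation k R R) (hD : D ∈ 𝒟) :
    ∀ v ∈ X, B v (act D u) = 0 := by
  intro v hv
  have e1 := hB D v u
  rw [hu v hv, map_zero, hu _ (hX D hD v hv), zero_add] at e1
  exact e1.symm

end Abs

/-! ### power series -/

section Ser

open MvPowerSeries

variable {k : Type*} [Field k] {τ : Type*} {ι : Type*}

theorem pderiv_comm (l m : τ) (f : MvPowerSeries τ k) :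
    pderiv k l (pderiv k m f) = pderiv k m (pderiv k l f) := by
  classical
  ext c
  rw [coeff_pderiv, coeff_pderiv, coeff_pderiv, coeff_pderiv, add_right_comm]
  rcases eq_or_ne l m with rfl | h
  · rfl
  · rw [Finsupp.add_apply, Finsupp.add_apply, Finsupp.single_eq_of_ne h.symm,
      Finsupp.single_eq_of_ne h]
    push_cast
    ring

/-- the derivations `∑ a_m ∂_m` -/
noncomputable def Der (k τ : Type*) [Field k] :
    Submodule (MvPowerSeries τ k) (Derivation k (MvPowerSeries τ k) (MvPowerSeries τ k)) :=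
  Submodule.span _ (Set.range (pderiv k))

theorem pderiv_mem_Der (l : τ) : pderiv k l ∈ Der k τ := Submodule.subset_span ⟨l, rfl⟩

theorem Der_bracket {D E : Derivation k (MvPowerSeries τ k) (MvPowerSeries τ k)}
    (hD : D ∈ Der k τ) (hE : E ∈ Der k τ) : ⁅D, E⁆ ∈ Der k τ := by
  -- first: `D` a generator
  have h1 : ∀ l : τ, ∀ E ∈ Der k τ, ⁅pderiv k l, E⁆ ∈ Der k τ := by
    intro l E hE
    induction hE using Submodule.span_induction with
    | mem x hx =>
      obtain ⟨m, rfl⟩ := hx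
      have e : ⁅pderiv k l, pderiv k m⁆ = 0 := by
        ext f
        rw [Derivation.commutator_apply, pderiv_comm, sub_self]
        simp
      rw [e]; exact Submodule.zero_mem _
    | zero => rw [br_zero]; exact Submodule.zero_mem _
    | add x y _ _ hx hy => rw [br_add]; exact Submodule.add_mem _ hx hy
    | smul c x hx' hx =>
      rw [br_smul]
      exact Submodule.add_mem _ (Submodule.smul_mem _ _ hx') (Submodule.smul_mem _ _ hx)
  induction hD using Submodule.span_induction with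
  | mem x hx =>
    obtain ⟨l, rfl⟩ := hx
    exact h1 l E hE
  | zero => rw [zero_br]; exact Submodule.zero_mem _
  | add x y _ _ hx hy => rw [add_br]; exact Submodule.add_mem _ hx hy
  | smul c x hx' hx =>
    rw [smul_br]
    exact Submodule.sub_mem _ (Submodule.smul_mem _ _ hx) (Submodule.smul_mem _ _ hx')

/-- splitting of all derivations from the splitting of the `∂_l` -/
theorem Der_split (s r : ι → MvPowerSeries τ k)
    (hT : ∀ l : τ, ∃ h : MvPowerSeries τ k, h ≠ 0 ∧ ∃ D₁ ∈ Der k τ, act D₁ r = 0 ∧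
      act D₁ s = h • act (pderiv k l) s) :
    ∀ D ∈ (Der k τ : Set (Derivation k (MvPowerSeries τ k) (MvPowerSeries τ k))),
      ∃ h : MvPowerSeries τ k, h ≠ 0 ∧ ∃ D₁ ∈ (Der k τ : Set _), ∃ D₂ ∈ (Der k τ : Set _),
        h • D = D₁ + D₂ ∧ act D₁ r = 0 ∧ act D₂ s = 0 := by
  intro D hD
  induction hD using Submodule.span_induction with
  | mem x hx =>
    obtain ⟨l, rfl⟩ := hx
    obtain ⟨h, hh, D₁, hD₁, e1, e2⟩ := hT l
    refine ⟨h, hh, D₁, hD₁, h • pderiv k l - D₁,
      Submodule.sub_mem _ (Submodule.smul_mem _ _ (pderiv_mem_Der l)) hD₁, by abel, e1, ?_⟩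
    funext i
    have := congrFun e2 i
    rw [act_apply, Pi.smul_apply, smul_eq_mul, act_apply] at this
    rw [act_apply, Derivation.sub_apply, Derivation.smul_apply, smul_eq_mul, this, sub_self,
      Pi.zero_apply]
  | zero =>
    exact ⟨1, one_ne_zero, 0, Submodule.zero_mem _, 0, Submodule.zero_mem _, by simp, rfl, rfl⟩
  | add x y _ _ hx hy =>
    obtain ⟨h, hh, D₁, hD₁, D₂, hD₂, e, e1, e2⟩ := hx
    obtain ⟨h', hh', D₁', hD₁', D₂', hD₂', e', e1', e2'⟩ := hy
    refine ⟨h * h', mul_ne_zero hh hh', h' • D₁ + h • D₁',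
      Submodule.add_mem _ (Submodule.smul_mem _ _ hD₁) (Submodule.smul_mem _ _ hD₁'),
      h' • D₂ + h • D₂',
      Submodule.add_mem _ (Submodule.smul_mem _ _ hD₂) (Submodule.smul_mem _ _ hD₂'), ?_, ?_, ?_⟩
    · rw [smul_add, mul_smul, mul_smul, e', smul_comm h h' x, e]
      simp only [smul_add]
      abel
    · rw [add_act, smul_act, smul_act, e1, e1']; simp
    · rw [add_act, smul_act, smul_act, e2, e2']; simp
  | smul c x _ hx =>
    obtain ⟨h, hh, D₁, hD₁, D₂, hD₂, e, e1, e2⟩ := hx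
    refine ⟨h, hh, c • D₁, Submodule.smul_mem _ _ hD₁, c • D₂, Submodule.smul_mem _ _ hD₂,
      ?_, ?_, ?_⟩
    · rw [smul_comm, e, smul_add]
    · rw [smul_act, e1]; simp
    · rw [smul_act, e2]; simp

/-- coefficient vector -/
noncomputable def cvec (c : τ →₀ ℕ) (v : ι → MvPowerSeries τ k) : ι → k := fun i => coeff c (v i)

@[simp] theorem cvec_apply (c : τ →₀ ℕ) (v : ι → MvPowerSeries τ k) (i : ι) :
    cvec c v i = coeff c (v i) := rfl

theorem cvec_act (c : τ →₀ ℕ) (v : ι → MvPowerSeries τ k) (m : τ) :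
    cvec c (act (pderiv k m) v) = ((c m : k) + 1) • cvec (c + Finsupp.single m 1) v := by
  funext i
  rw [cvec_apply, act_apply, coeff_pderiv, Pi.smul_apply, smul_eq_mul, cvec_apply, mul_comm]

/-- induction on exponents -/
theorem fins_ind (P : (τ →₀ ℕ) → Prop) (h0 : P 0)
    (h1 : ∀ c m, P c → P (c + Finsupp.single m 1)) (c : τ →₀ ℕ) : P c := by
  classical
  have key : ∀ (c d : τ →₀ ℕ), P d → P (d + c) := by
    intro c
    induction c using Finsupp.induction_linear with
    | zero => intro d hd; rwa [add_zero]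
    | add f g hf hg => intro d hd; rw [← add_assoc]; exact hg _ (hf _ hd)
    | single a b =>
      induction b with
      | zero => intro d hd; rwa [Finsupp.single_zero, add_zero]
      | succ b ih =>
        intro d hd
        rw [Finsupp.single_add, ← add_assoc]
        exact h1 _ _ (ih d hd)
  have := key c 0 h0
  rwa [zero_add] at this

theorem exists_pred {c : τ →₀ ℕ} (hc : c ≠ 0) : ∃ c' m, c = c' + Finsupp.single m 1 := by
  classical
  obtain ⟨m, hm⟩ := Finsupp.ne_iff.1 hc
  refine ⟨c - Finsupp.single m 1, m, ?_⟩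
  rw [tsub_add_cancel_of_le]
  intro j
  rcases eq_or_ne j m with rfl | hj
  · rw [Finsupp.single_eq_same]
    exact Nat.one_le_iff_ne_zero.2 hm
  · rw [Finsupp.single_eq_of_ne hj]; exact Nat.zero_le _

theorem coeff_of_stable [CharZero k] (Z : Set (ι → MvPowerSeries τ k))
    (hZ : ∀ m, ∀ u ∈ Z, act (pderiv k m) u ∈ Z) (ℓ : (ι → k) →ₗ[k] k)
    (h0 : ∀ u ∈ Z, ℓ (cvec 0 u) = 0) (c : τ →₀ ℕ) : ∀ u ∈ Z, ℓ (cvec c u) = 0 := by
  induction c using fins_ind with
  | h0 => exact h0
  | h1 c m ih =>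
    intro u hu
    have e1 := ih _ (hZ m u hu)
    rw [cvec_act, map_smul, smul_eq_mul] at e1
    exact (mul_eq_zero.1 e1).resolve_left (Nat.cast_add_one_ne_zero _)

theorem coeff_of_stable' [CharZero k] (Z : Set (ι → MvPowerSeries τ k))
    (hZ : ∀ m, ∀ u ∈ Z, act (pderiv k m) u ∈ Z) (ℓ : (ι → k) →ₗ[k] k)
    (h0 : ∀ u ∈ Z, ℓ (cvec 0 u) = 0) (v : ι → MvPowerSeries τ k)
    (hv : ∀ m, act (pderiv k m) v ∈ Z) (c : τ →₀ ℕ) (hc : c ≠ 0) : ℓ (cvec c v) = 0 := by
  obtain ⟨c', m, rfl⟩ := exists_pred hc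
  have e1 := coeff_of_stable Z hZ ℓ h0 c' _ (hv m)
  rw [cvec_act, map_smul, smul_eq_mul] at e1
  exact (mul_eq_zero.1 e1).resolve_left (Nat.cast_add_one_ne_zero _)

/-- the bilinear form over the power series ring with constant matrix `b` -/
noncomputable def Bm [Fintype ι] (b : ι → ι → k) :
    (ι → MvPowerSeries τ k) →ₗ[MvPowerSeries τ k] (ι → MvPowerSeries τ k)
      →ₗ[MvPowerSeries τ k] MvPowerSeries τ k :=
  LinearMap.mk₂ _ (fun u v => ∑ i, ∑ j, b i j • (u i * v j))
    (fun u u' v => by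
      rw [← Finset.sum_add_distrib]
      refine Finset.sum_congr rfl fun i _ => ?_
      rw [← Finset.sum_add_distrib]
      refine Finset.sum_congr rfl fun j _ => ?_
      rw [Pi.add_apply, add_mul, smul_add])
    (fun c u v => by
      rw [Finset.smul_sum]
      refine Finset.sum_congr rfl fun i _ => ?_
      rw [Finset.smul_sum]
      refine Finset.sum_congr rfl fun j _ => ?_
      rw [Pi.smul_apply, smul_eq_mul, smul_eq_mul, mul_assoc, mul_smul_comm])
    (fun u v v' => by
      rw [← Finset.sum_add_distrib]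
      refine Finset.sum_congr rfl fun i _ => ?_
      rw [← Finset.sum_add_distrib]
      refine Finset.sum_congr rfl fun j _ => ?_
      rw [Pi.add_apply, mul_add, smul_add])
    (fun c u v => by
      rw [Finset.smul_sum]
      refine Finset.sum_congr rfl fun i _ => ?_
      rw [Finset.smul_sum]
      refine Finset.sum_congr rfl fun j _ => ?_
      rw [Pi.smul_apply, smul_eq_mul, smul_eq_mul, mul_left_comm, mul_smul_comm])

theorem Bm_apply [Fintype ι] (b : ι → ι → k) (u v : ι → MvPowerSeries τ k) :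
    Bm b u v = ∑ i, ∑ j, b i j • (u i * v j) := rfl

/-- the bilinear form over `k` -/
noncomputable def bk [Fintype ι] (b : ι → ι → k) : (ι → k) →ₗ[k] (ι → k) →ₗ[k] k :=
  LinearMap.mk₂ _ (fun u v => ∑ i, ∑ j, b i j * (u i * v j))
    (fun u u' v => by
      rw [← Finset.sum_add_distrib]
      refine Finset.sum_congr rfl fun i _ => ?_
      rw [← Finset.sum_add_distrib]
      refine Finset.sum_congr rfl fun j _ => ?_
      rw [Pi.add_apply]; ring)
    (fun c u v => by
      rw [Finset.smul_sum]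
      refine Finset.sum_congr rfl fun i _ => ?_
      rw [Finset.smul_sum]
      refine Finset.sum_congr rfl fun j _ => ?_
      rw [Pi.smul_apply, smul_eq_mul, smul_eq_mul]; ring)
    (fun u v v' => by
      rw [← Finset.sum_add_distrib]
      refine Finset.sum_congr rfl fun i _ => ?_
      rw [← Finset.sum_add_distrib]
      refine Finset.sum_congr rfl fun j _ => ?_
      rw [Pi.add_apply]; ring)
    (fun c u v => by
      rw [Finset.smul_sum]
      refine Finset.sum_congr rfl fun i _ => ?_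
      rw [Finset.smul_sum]
      refine Finset.sum_congr rfl fun j _ => ?_
      rw [Pi.smul_apply, smul_eq_mul, smul_eq_mul]; ring)

theorem bk_apply [Fintype ι] (b : ι → ι → k) (u v : ι → k) :
    bk b u v = ∑ i, ∑ j, b i j * (u i * v j) := rfl

theorem Bm_symm [Fintype ι] (b : ι → ι → k) (hb : ∀ i j, b i j = b j i)
    (u v : ι → MvPowerSeries τ k) : Bm b u v = Bm b v u := by
  rw [Bm_apply, Bm_apply, Finset.sum_comm]
  refine Finset.sum_congr rfl fun i _ => Finset.sum_congr rfl fun j _ => ?_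
  rw [hb j i, mul_comm]

theorem bk_symm [Fintype ι] (b : ι → ι → k) (hb : ∀ i j, b i j = b j i)
    (u v : ι → k) : bk b u v = bk b v u := by
  rw [bk_apply, bk_apply, Finset.sum_comm]
  refine Finset.sum_congr rfl fun i _ => Finset.sum_congr rfl fun j _ => ?_
  rw [hb j i, mul_comm (u j)]

theorem Bm_der [Fintype ι] (b : ι → ι → k)
    (D : Derivation k (MvPowerSeries τ k) (MvPowerSeries τ k)) (u v : ι → MvPowerSeries τ k) :
    D (Bm b u v) = Bm b (act D u) v + Bm b u (act D v) := by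
  rw [Bm_apply, Bm_apply, Bm_apply, map_sum, ← Finset.sum_add_distrib]
  refine Finset.sum_congr rfl fun i _ => ?_
  rw [map_sum, ← Finset.sum_add_distrib]
  refine Finset.sum_congr rfl fun j _ => ?_
  rw [Derivation.map_smul, Derivation.leibniz, smul_eq_mul, smul_eq_mul, act_apply, act_apply,
    ← smul_add]
  congr 1
  ring

theorem coeff_zero_Bm [Fintype ι] (b : ι → ι → k) (u v : ι → MvPowerSeries τ k) :
    coeff 0 (Bm b u v) = bk b (cvec 0 u) (cvec 0 v) := by
  rw [Bm_apply, bk_apply, map_sum]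
  refine Finset.sum_congr rfl fun i _ => ?_
  rw [map_sum]
  refine Finset.sum_congr rfl fun j _ => ?_
  rw [cvec_apply, cvec_apply, coeff_zero_eq_constantCoeff_apply, coeff_zero_eq_constantCoeff_apply,
    coeff_zero_eq_constantCoeff_apply, ← map_mul]
  rw [← coeff_zero_eq_constantCoeff_apply, ← coeff_zero_eq_constantCoeff_apply, map_smul,
    smul_eq_mul]

theorem Bm_eq_zero [Fintype ι] (b : ι → ι → k) (u v : ι → MvPowerSeries τ k)
    (h : ∀ c c', bk b (cvec c u) (cvec c' v) = 0) : Bm b u v = 0 := by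
  classical
  ext n
  rw [Bm_apply, map_sum, map_zero]
  have e1 : ∀ i, coeff n (∑ j, b i j • (u i * v j))
      = ∑ p ∈ Finset.antidiagonal n, ∑ j, b i j * (coeff p.1 (u i) * coeff p.2 (v j)) := by
    intro i
    rw [map_sum, Finset.sum_comm]
    refine Finset.sum_congr rfl fun j _ => ?_
    rw [map_smul, coeff_mul, smul_eq_mul, Finset.mul_sum]
  rw [Finset.sum_congr rfl fun i _ => e1 i, Finset.sum_comm]
  exact Finset.sum_eq_zero fun p _ => h p.1 p.2

variable [Fintype ι]

/-- **[PROD], germ form** (general symmetric form `b` with constant coefficients). -/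
theorem prod_germ [CharZero k] (b : ι → ι → k) (hb : ∀ i j, b i j = b j i) (s r : ι → MvPowerSeries τ k)
    (hQ : Bm b (s - r) (s - r) = 0)
    (hT : ∀ l : τ, ∃ h : MvPowerSeries τ k, h ≠ 0 ∧ ∃ D₁ ∈ Der k τ, act D₁ r = 0 ∧
      act D₁ s = h • act (pderiv k l) s) :
    (∀ c ≠ 0, ∀ c' ≠ 0, bk b (cvec c s) (cvec c' r) = 0) ∧
    ((∀ c ≠ 0, ∀ c' ≠ 0, bk b (cvec c s) (cvec c' s) = 0) →
      ∀ c ≠ 0, bk b (cvec 0 s - cvec 0 r) (cvec c s) = 0) ∧
    ((∀ c ≠ 0, ∀ c' ≠ 0, bk b (cvec c r) (cvec c' r) = 0) →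
      ∀ c ≠ 0, bk b (cvec 0 s - cvec 0 r) (cvec c r) = 0) := by
  have h2 : (2 : MvPowerSeries τ k) ≠ 0 := by
    intro h
    have e1 := congrArg (constantCoeff (σ := τ) (R := k)) h
    rw [map_ofNat, map_zero] at e1
    exact two_ne_zero e1
  have hspl := Der_split s r hT
  obtain ⟨X, hXs, hXst, hXr⟩ := prod_abs (Der k τ : Set _)
    (fun D hD E hE => Der_bracket hD hE) s r hspl (Bm b) (Bm_symm b hb) (Bm_der b) h2 hQ
  -- first order facts
  have hs1 : ∀ m, Bm b (s - r) (act (pderiv k m) s) = 0 := by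
    intro m
    obtain ⟨h, hh, D₁, hD₁, e1, e2⟩ := hT m
    have e3 := Bm_der b D₁ (s - r) (s - r)
    rw [hQ, map_zero, act_sub, e1, sub_zero, Bm_symm b hb (act D₁ s) (s - r), ← two_mul, e2,
      map_smul, smul_eq_mul] at e3
    exact (mul_eq_zero.1 ((mul_eq_zero.1 e3.symm).resolve_left h2)).resolve_left hh
  have hr1 : ∀ m, Bm b (s - r) (act (pderiv k m) r) = 0 := by
    intro m
    have e3 := Bm_der b (pderiv k m) (s - r) (s - r)
    rw [hQ, map_zero, Bm_symm b hb (act (pderiv k m) (s - r)) (s - r), ← two_mul] at e3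
    have e4 := (mul_eq_zero.1 e3.symm).resolve_left h2
    rw [act_sub, map_sub, hs1 m, zero_sub] at e4
    exact neg_eq_zero.1 e4
  -- perpendicularity of `X` and the derivatives of `r`
  let Y : Set (ι → MvPowerSeries τ k) := {u | ∀ v ∈ X, Bm b v u = 0}
  have hYr : ∀ m, act (pderiv k m) r ∈ Y := fun m v hv => hXr _ (pderiv_mem_Der m) v hv
  have hYst : ∀ m, ∀ u ∈ Y, act (pderiv k m) u ∈ Y := fun m u hu =>
    orth_stable (Der k τ : Set _) X hXst (Bm b) (Bm_der b) u hu _ (pderiv_mem_Der m)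
  have hXs' : ∀ m, act (pderiv k m) s ∈ (X : Set _) := fun m => hXs _ (pderiv_mem_Der m)
  have hXst' : ∀ m, ∀ u ∈ (X : Set _), act (pderiv k m) u ∈ (X : Set _) :=
    fun m u hu => hXst _ (pderiv_mem_Der m) u hu
  refine ⟨?_, ?_, ?_⟩
  · intro c hc c' hc'
    refine coeff_of_stable' Y hYst (bk b (cvec c s)) ?_ r hYr c' hc'
    intro u hu
    have e1 := coeff_of_stable' (X : Set _) hXst' ((bk b).flip (cvec 0 u)) ?_ s hXs' c hc
    · exact e1
    · intro v hv
      rw [LinearMap.flip_apply, ← coeff_zero_Bm, hu v hv, map_zero]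
  · intro hiso c hc
    -- `Z` : vectors with coefficients isotropic ..., orthogonal to `s - r`
    let Z : Set (ι → MvPowerSeries τ k) := {u | u ∈ X ∧ Bm b (s - r) u = 0 ∧
      ∀ c, ∀ c' ≠ 0, bk b (cvec c u) (cvec c' s) = 0}
    have hZst : ∀ m, ∀ u ∈ Z, act (pderiv k m) u ∈ Z := by
      rintro m u ⟨h1, h3, h4⟩
      refine ⟨hXst' m u h1, ?_, ?_⟩
      · have e1 := Bm_der b (pderiv k m) (s - r) u
        rw [h3, map_zero, act_sub, map_sub, LinearMap.sub_apply] at e1
        have e2 : Bm b (act (pderiv k m) s) u = 0 := by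
          rw [Bm_symm b hb]
          refine Bm_eq_zero b _ _ fun d d' => ?_
          rw [cvec_act, map_smul, h4 d _ ?_, smul_zero]
          intro hd
          have := congrArg (fun f => f m) hd
          simp at this
        have e3 : Bm b (act (pderiv k m) r) u = 0 := by
          rw [Bm_symm b hb]
          exact hYr m u h1
        rw [e2, e3, sub_zero, zero_add] at e1
        exact e1.symm
      · intro d d' hd'
        rw [cvec_act, map_smul, LinearMap.smul_apply, h4 _ d' hd', smul_zero]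
    have hZs : ∀ m, act (pderiv k m) s ∈ Z := by
      intro m
      refine ⟨hXs' m, hs1 m, ?_⟩
      intro d d' hd'
      rw [cvec_act, map_smul, LinearMap.smul_apply, hiso _ ?_ d' hd', smul_zero]
      intro hd
      have := congrArg (fun f => f m) hd
      simp at this
    refine coeff_of_stable' Z hZst (bk b (cvec 0 s - cvec 0 r)) ?_ s hZs c hc
    rintro u ⟨h1, h3, h4⟩
    have e1 := coeff_zero_Bm b (s - r) u
    rw [h3, map_zero] at e1
    have e2 : cvec 0 (s - r) = cvec 0 s - cvec 0 r := by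
      funext i; rw [cvec_apply, Pi.sub_apply, map_sub]; rfl
    rw [e2] at e1
    exact e1.symm
  · intro hiso c hc
    let Z : Set (ι → MvPowerSeries τ k) := {u | u ∈ Y ∧ Bm b (s - r) u = 0 ∧
      ∀ c, ∀ c' ≠ 0, bk b (cvec c u) (cvec c' r) = 0}
    have hZst : ∀ m, ∀ u ∈ Z, act (pderiv k m) u ∈ Z := by
      rintro m u ⟨h1, h3, h4⟩
      refine ⟨hYst m u h1, ?_, ?_⟩
      · have e1 := Bm_der b (pderiv k m) (s - r) u
        rw [h3, map_zero, act_sub, map_sub, LinearMap.sub_apply] at e1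
        have e2 : Bm b (act (pderiv k m) r) u = 0 := by
          rw [Bm_symm b hb]
          refine Bm_eq_zero b _ _ fun d d' => ?_
          rw [cvec_act, map_smul, h4 d _ ?_, smul_zero]
          intro hd
          have := congrArg (fun f => f m) hd
          simp at this
        have e3 : Bm b (act (pderiv k m) s) u = 0 := h1 _ (hXs' m)
        rw [e2, e3, sub_zero, zero_add] at e1
        exact e1.symm
      · intro d d' hd'
        rw [cvec_act, map_smul, LinearMap.smul_apply, h4 _ d' hd', smul_zero]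
    have hZs : ∀ m, act (pderiv k m) r ∈ Z := by
      intro m
      refine ⟨hYr m, hr1 m, ?_⟩
      intro d d' hd'
      rw [cvec_act, map_smul, LinearMap.smul_apply, hiso _ ?_ d' hd', smul_zero]
      intro hd
      have := congrArg (fun f => f m) hd
      simp at this
    refine coeff_of_stable' Z hZst (bk b (cvec 0 s - cvec 0 r)) ?_ r hZs c hc
    rintro u ⟨h1, h3, h4⟩
    have e1 := coeff_zero_Bm b (s - r) u
    rw [h3, map_zero] at e1
    have e2 : cvec 0 (s - r) = cvec 0 s - cvec 0 r := by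
      funext i; rw [cvec_apply, Pi.sub_apply, map_sub]; rfl
    rw [e2] at e1
    exact e1.symm

/-- direction space of the affine hull of a germ of vectors -/
noncomputable def dirSp (v : ι → MvPowerSeries τ k) : Submodule k (ι → k) :=
  Submodule.span k {x | ∃ c : τ →₀ ℕ, c ≠ 0 ∧ x = cvec c v}

omit [Fintype ι] in
theorem cvec_mem_dirSp (v : ι → MvPowerSeries τ k) {c : τ →₀ ℕ} (hc : c ≠ 0) :
    cvec c v ∈ dirSp v := Submodule.subset_span ⟨c, hc, rfl⟩

/-- bilinear vanishing on generators extends to the spans -/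
theorem bk_dirSp (b : ι → ι → k) (u v : ι → MvPowerSeries τ k)
    (h : ∀ c ≠ 0, ∀ c' ≠ 0, bk b (cvec c u) (cvec c' v) = 0) :
    ∀ x ∈ dirSp u, ∀ y ∈ dirSp v, bk b x y = 0 := by
  intro x hx y hy
  have h1 : ∀ c ≠ 0, ∀ y ∈ dirSp v, bk b (cvec c u) y = 0 := by
    intro c hc y hy
    have : dirSp v ≤ LinearMap.ker (bk b (cvec c u)) := by
      refine Submodule.span_le.2 ?_
      rintro z ⟨c', hc', rfl⟩
      exact h c hc c' hc'
    exact this hy
  have h2 : dirSp u ≤ LinearMap.ker ((bk b).flip y) := by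
    refine Submodule.span_le.2 ?_
    rintro z ⟨c', hc', rfl⟩
    exact h1 c' hc' y hy
  exact h2 hx

/-- **[PROD] for the direction spaces.** -/
theorem prod_dir [CharZero k] (b : ι → ι → k) (hb : ∀ i j, b i j = b j i) (s r : ι → MvPowerSeries τ k)
    (hQ : Bm b (s - r) (s - r) = 0)
    (hT : ∀ l : τ, ∃ h : MvPowerSeries τ k, h ≠ 0 ∧ ∃ D₁ ∈ Der k τ, act D₁ r = 0 ∧
      act D₁ s = h • act (pderiv k l) s) :
    (∀ x ∈ dirSp s, ∀ y ∈ dirSp r, bk b x y = 0) ∧
    ((∀ x ∈ dirSp s, ∀ y ∈ dirSp s, bk b x y = 0) →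
      ∀ x ∈ dirSp s, bk b (cvec 0 s - cvec 0 r) x = 0) ∧
    ((∀ x ∈ dirSp r, ∀ y ∈ dirSp r, bk b x y = 0) →
      ∀ x ∈ dirSp r, bk b (cvec 0 s - cvec 0 r) x = 0) := by
  obtain ⟨h1, h2, h3⟩ := prod_germ b hb s r hQ hT
  refine ⟨bk_dirSp b s r h1, fun hiso => ?_, fun hiso => ?_⟩
  · have e1 := h2 (fun c hc c' hc' => hiso _ (cvec_mem_dirSp s hc) _ (cvec_mem_dirSp s hc'))
    have e2 : dirSp s ≤ LinearMap.ker (bk b (cvec 0 s - cvec 0 r)) := by
      refine Submodule.span_le.2 ?_
      rintro z ⟨c', hc', rfl⟩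
      exact e1 c' hc'
    exact fun x hx => e2 hx
  · have e1 := h3 (fun c hc c' hc' => hiso _ (cvec_mem_dirSp r hc) _ (cvec_mem_dirSp r hc'))
    have e2 : dirSp r ≤ LinearMap.ker (bk b (cvec 0 s - cvec 0 r)) := by
      refine Submodule.span_le.2 ?_
      rintro z ⟨c', hc', rfl⟩
      exact e1 c' hc'
    exact fun x hx => e2 hx

/-- an affine function vanishes on the germ iff it vanishes at the base point and its linear part
kills the direction space -/
theorem affine_iff (v : ι → MvPowerSeries τ k) (ℓ : ι → k) (a : k) :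
    ∑ i, ℓ i • v i = C a ↔
      (∑ i, ℓ i * cvec 0 v i = a ∧ ∀ x ∈ dirSp v, ∑ i, ℓ i * x i = 0) := by
  classical
  have e0 : ∀ c : τ →₀ ℕ, coeff c (∑ i, ℓ i • v i) = ∑ i, ℓ i * cvec c v i := by
    intro c
    rw [map_sum]
    exact Finset.sum_congr rfl fun i _ => by rw [map_smul, smul_eq_mul, cvec_apply]
  constructor
  · intro h
    refine ⟨?_, fun x hx => ?_⟩
    · rw [← e0 0, h, coeff_C]; simp
    · have h1 : dirSp v ≤ LinearMap.ker (Fintype.linearCombination k (M := k) ℓ) := by
        refine Submodule.span_le.2 ?_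
        rintro z ⟨c, hc, rfl⟩
        rw [SetLike.mem_coe, LinearMap.mem_ker, Fintype.linearCombination_apply]
        have e1 := e0 c
        rw [h, coeff_C, if_neg hc] at e1
        rw [e1]
        exact Finset.sum_congr rfl fun i _ => by rw [smul_eq_mul, mul_comm]
      have h2 := h1 hx
      rw [LinearMap.mem_ker, Fintype.linearCombination_apply] at h2
      rw [← h2]
      exact Finset.sum_congr rfl fun i _ => by rw [smul_eq_mul, mul_comm]
  · rintro ⟨h1, h2⟩
    ext c
    rw [e0, coeff_C]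
    split_ifs with hc
    · rw [hc, h1]
    · exact h2 _ (cvec_mem_dirSp v hc)

/-- a point satisfying the affine equations of the germ lies in `v(0) + dirSp v` -/
theorem sub_mem_dirSp (v : ι → MvPowerSeries τ k) (x : ι → k)
    (hx : ∀ (ℓ : ι → k) (a : k), ∑ i, ℓ i • v i = C a → ∑ i, ℓ i * x i = a) :
    x - cvec 0 v ∈ dirSp v := by
  classical
  by_contra hcon
  obtain ⟨f, hf, hf'⟩ := Submodule.exists_le_ker_of_notMem hcon
  have hfl : ∀ y : ι → k, f y = ∑ i, f (Pi.single i 1) * y i := by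
    intro y
    have e : y = ∑ i, y i • (Pi.single i 1 : ι → k) := by
      funext j
      simp [Finset.sum_apply, Pi.single_apply]
    conv_lhs => rw [e]
    rw [map_sum]
    exact Finset.sum_congr rfl fun i _ => by rw [map_smul, smul_eq_mul, mul_comm]
  have h1 := hx (fun i => f (Pi.single i 1)) (f (cvec 0 v)) ((affine_iff v _ _).2
    ⟨(hfl _).symm, fun y hy => by rw [← hfl]; exact hf' hy⟩)
  rw [← hfl] at h1
  apply hf
  rw [map_sub, h1, sub_self]

/-- the same, from the kernel of a germ homomorphism: `v = (φ X_{j i})_i` and `p'` a zero of `ker φ` -/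
theorem sub_mem_dirSp_of_ker {σ : Type*} (φ : MvPolynomial σ k →ₐ[k] MvPowerSeries τ k)
    (j : ι → σ) (p' : σ → k) (hp' : ∀ F, φ F = 0 → MvPolynomial.eval p' F = 0) :
    (fun i => p' (j i)) - cvec 0 (fun i => φ (MvPolynomial.X (j i)))
      ∈ dirSp (fun i => φ (MvPolynomial.X (j i))) := by
  refine sub_mem_dirSp _ _ fun ℓ a h => ?_
  have e1 := hp' (∑ i, MvPolynomial.C (ℓ i) * MvPolynomial.X (j i) - MvPolynomial.C a) ?_
  · rw [map_sub, map_sum, MvPolynomial.eval_C, sub_eq_zero] at e1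
    rw [← e1]
    exact Finset.sum_congr rfl fun i _ => by
      rw [map_mul, MvPolynomial.eval_C, MvPolynomial.eval_X]
  · rw [map_sub, map_sum, sub_eq_zero]
    have e2 : φ (MvPolynomial.C a) = C a := by
      rw [← MvPolynomial.algebraMap_eq, AlgHom.commutes]; rfl
    rw [e2, ← h]
    refine Finset.sum_congr rfl fun i _ => ?_
    rw [map_mul, ← MvPolynomial.algebraMap_eq, AlgHom.commutes, Algebra.smul_def]

omit [Fintype ι] in
/-- clearing denominators in 930's (T4) -/
theorem hT_of_split [Fintype τ] {L : Type*} [Field L] (f : MvPowerSeries τ k →+* L)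
    (hf : Function.Injective f) (s r : ι → MvPowerSeries τ k)
    (h : ∀ l : τ, ∃ α : τ → L, (∀ x, ∑ m, α m * f (pderiv k m (r x)) = 0) ∧
      ∀ x, ∑ m, α m * f (pderiv k m (s x)) = f (pderiv k l (s x))) :
    ∀ l : τ, ∃ h : MvPowerSeries τ k, h ≠ 0 ∧ ∃ D₁ ∈ Der k τ, act D₁ r = 0 ∧
      act D₁ s = h • act (pderiv k l) s := by
  classical
  intro l
  obtain ⟨α, h1, h2⟩ := h l
  -- descend `α` to the fraction field
  have : IsDomain (MvPowerSeries τ k) := NoZeroDivisors.to_isDomain _
  let K := FractionRing (MvPowerSeries τ k)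
  let g : K →+* L := IsFractionRing.lift hf
  have hg : ∀ x : MvPowerSeries τ k, g (algebraMap _ K x) = f x := fun x =>
    IsFractionRing.lift_algebraMap hf x
  let _ : Algebra K L := g.toAlgebra
  have halg : ∀ x : K, algebraMap K L x = g x := fun _ => rfl
  obtain ⟨p, hp⟩ := LinearMap.exists_leftInverse_of_injective (Algebra.linearMap K L)
    (LinearMap.ker_eq_bot.2 (by
      intro x y hxy
      exact (algebraMap K L).injective hxy))
  have hp' : ∀ x : K, p (algebraMap K L x) = x := fun x => congrArg (fun q => q x) hp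
  have hp2 : ∀ (a : L) (x : MvPowerSeries τ k), p (a * f x) = p a * algebraMap _ K x := by
    intro a x
    have e : a * f x = (algebraMap _ K x : K) • a := by
      rw [Algebra.smul_def, halg, hg, mul_comm]
    rw [e, map_smul, smul_eq_mul, mul_comm]
  have h1' : ∀ x, ∑ m, p (α m) * algebraMap _ K (pderiv k m (r x)) = 0 := by
    intro x
    have e := congrArg p (h1 x)
    rw [map_sum, map_zero] at e
    rw [← e]
    exact Finset.sum_congr rfl fun m _ => (hp2 _ _).symm
  have h2' : ∀ x, ∑ m, p (α m) * algebraMap _ K (pderiv k m (s x))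
      = algebraMap _ K (pderiv k l (s x)) := by
    intro x
    have e := congrArg p (h2 x)
    rw [map_sum] at e
    have e' : p (f (pderiv k l (s x))) = algebraMap _ K (pderiv k l (s x)) := by
      rw [← hg, ← halg, hp']
    rw [← e', ← e]
    exact Finset.sum_congr rfl fun m _ => (hp2 _ _).symm
  obtain ⟨d, hd⟩ := IsLocalization.exist_integer_multiples_of_finite
    (nonZeroDivisors (MvPowerSeries τ k)) (fun m => p (α m))
  choose a ha using hd
  have ha' : ∀ m, algebraMap _ K (a m) = algebraMap _ K (d : MvPowerSeries τ k) * p (α m) := by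
    intro m
    rw [ha m, Algebra.smul_def]
  have hinj : Function.Injective (algebraMap (MvPowerSeries τ k) K) :=
    IsFractionRing.injective _ _
  have hDa : ∀ x : MvPowerSeries τ k, (∑ m, a m • pderiv k m) x = ∑ m, a m * pderiv k m x := by
    intro x
    rw [← Derivation.coeFnAddMonoidHom_apply, map_sum, Finset.sum_apply]
    rfl
  refine ⟨d, nonZeroDivisors.ne_zero d.2, ∑ m, a m • pderiv k m,
    Submodule.sum_mem _ fun m _ => Submodule.smul_mem _ _ (pderiv_mem_Der m), ?_, ?_⟩
  · funext x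
    rw [act_apply, hDa, Pi.zero_apply]
    apply hinj
    rw [map_sum, map_zero]
    have e : ∀ m, algebraMap _ K (a m * pderiv k m (r x))
        = algebraMap _ K (d : MvPowerSeries τ k) * (p (α m) * algebraMap _ K (pderiv k m (r x))) := by
      intro m
      rw [map_mul, ha', mul_assoc]
    rw [Finset.sum_congr rfl fun m _ => e m, ← Finset.mul_sum, h1', mul_zero]
  · funext x
    rw [act_apply, hDa, Pi.smul_apply, smul_eq_mul, act_apply]
    apply hinj
    rw [map_sum, map_mul]
    have e : ∀ m, algebraMap _ K (a m * pderiv k m (s x))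
        = algebraMap _ K (d : MvPowerSeries τ k) * (p (α m) * algebraMap _ K (pderiv k m (s x))) := by
      intro m
      rw [map_mul, ha', mul_assoc]
    rw [Finset.sum_congr rfl fun m _ => e m, ← Finset.mul_sum, h2']

end Ser

end Vale.Agent.P054.T2.H981
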