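import Vale.Agent.P054.T2.H981.Prod
import Vale.Agent.P054.T2.H192.Tree

set_option autoImplicit false
set_option linter.unusedSectionVars false

/-!
# P054 / T2, leaf [PROD], part 2: in the coordinates of [TREE]
-/

namespace Vale.Agent.P054.T2.H981

open MvPowerSeries H686 H192 Module

variable {k : Type*} [Field k] {τ : Type*} {n : ℕ}

/-- coordinates to vectors -/
noncomputable def toW (k : Type*) [Field k] (n : ℕ) :
    (Fin (n + 1) ⊕ Fin (n + 1) → k) ≃ₗ[k] W k n :=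
  LinearEquiv.sumArrowLequivProdArrow _ _ k k

theorem toW_apply (v : Fin (n + 1) ⊕ Fin (n + 1) → k) :
    toW k n v = (fun i => v (Sum.inl i), fun i => v (Sum.inr i)) := rfl

theorem toW_symm_apply (v : W k n) : (toW k n).symm v = Sum.elim v.1 v.2 := rfl

/-- the matrix of the split form -/
def bQ (k : Type*) [Field k] (n : ℕ) : Fin (n + 1) ⊕ Fin (n + 1) → Fin (n + 1) ⊕ Fin (n + 1) → k
  | Sum.inl i, Sum.inr j => if i = j then 1 else 0
  | Sum.inr i, Sum.inl j => if i = j then 1 else 0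
  | _, _ => 0

theorem bQ_symm (i j : Fin (n + 1) ⊕ Fin (n + 1)) : bQ k n i j = bQ k n j i := by
  rcases i with i | i <;> rcases j with j | j <;> simp [bQ, eq_comm]

theorem bk_bQ (u v : Fin (n + 1) ⊕ Fin (n + 1) → k) :
    bk (bQ k n) u v = Bf (toW k n u) (toW k n v) := by
  rw [bk_apply, Fintype.sum_sum_type]
  simp only [Fintype.sum_sum_type, bQ, zero_mul, Finset.sum_const_zero, zero_add, ite_mul, one_mul,
    Finset.sum_ite_eq, Finset.mem_univ, if_true, add_zero]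
  rw [← Finset.sum_add_distrib, Bf]
  refine Finset.sum_congr rfl fun i _ => ?_
  simp only [toW_apply]
  ring

theorem Bm_bQ (u v : Fin (n + 1) ⊕ Fin (n + 1) → MvPowerSeries τ k) :
    Bm (bQ k n) u v = ∑ i, (u (Sum.inl i) * v (Sum.inr i) + v (Sum.inl i) * u (Sum.inr i)) := by
  rw [Bm_apply, Fintype.sum_sum_type]
  simp only [Fintype.sum_sum_type, bQ, zero_smul, Finset.sum_const_zero, zero_add, ite_smul,
    one_smul, Finset.sum_ite_eq, Finset.mem_univ, if_true, add_zero]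
  rw [← Finset.sum_add_distrib]
  refine Finset.sum_congr rfl fun i _ => ?_
  ring

/-- direction space, in `W k n` -/
noncomputable def dirW (s : Fin (n + 1) ⊕ Fin (n + 1) → MvPowerSeries τ k) :
    Submodule k (W k n) := (dirSp s).map (toW k n : _ →ₗ[k] W k n)

/-- base point, in `W k n` -/
noncomputable def baseW (s : Fin (n + 1) ⊕ Fin (n + 1) → MvPowerSeries τ k) : W k n :=
  toW k n (cvec 0 s)

theorem baseW_eq (s : Fin (n + 1) ⊕ Fin (n + 1) → MvPowerSeries τ k) :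
    baseW s = (fun i => constantCoeff (s (Sum.inl i)), fun i => constantCoeff (s (Sum.inr i))) := by
  rw [baseW, toW_apply]
  simp only [cvec_apply, coeff_zero_eq_constantCoeff_apply]

theorem mem_dirW {s : Fin (n + 1) ⊕ Fin (n + 1) → MvPowerSeries τ k} {x : W k n} :
    x ∈ dirW s ↔ ∃ y ∈ dirSp s, toW k n y = x := Submodule.mem_map

theorem Bf_sub_left (a b c : W k n) : Bf (a - b) c = Bf a c - Bf b c := by
  rw [sub_eq_add_neg, Bf_add_left, ← neg_one_smul k b, Bf_smul_left]; ring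

/-- an affine function vanishes on the germ iff it vanishes at the base point and kills `dirW` -/
theorem affineW_iff (s : Fin (n + 1) ⊕ Fin (n + 1) → MvPowerSeries τ k)
    (ℓ : Fin (n + 1) ⊕ Fin (n + 1) → k) (a : k) :
    ∑ i, ℓ i • s i = C a ↔
      (∑ i, ℓ i * (Sum.elim (baseW s).1 (baseW s).2 : _ → k) i = a ∧
        ∀ x ∈ dirW s, ∑ i, ℓ i * (Sum.elim x.1 x.2 : _ → k) i = 0) := by
  rw [affine_iff]
  refine and_congr ?_ ⟨?_, ?_⟩
  · have : (Sum.elim (baseW s).1 (baseW s).2 : _ → k) = cvec 0 s := by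
      rw [baseW, ← toW_symm_apply, LinearEquiv.symm_apply_apply]
    rw [this]
  · rintro h x hx
    obtain ⟨y, hy, rfl⟩ := mem_dirW.1 hx
    rw [← toW_symm_apply, LinearEquiv.symm_apply_apply]
    exact h y hy
  · rintro h y hy
    have := h (toW k n y) (mem_dirW.2 ⟨y, hy, rfl⟩)
    rwa [← toW_symm_apply, LinearEquiv.symm_apply_apply] at this

/-- zeros of the prime of the germ lie in the affine hull -/
theorem sub_mem_dirW_of_ker {σ : Type*} (φ : MvPolynomial σ k →ₐ[k] MvPowerSeries τ k)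
    (j : Fin (n + 1) ⊕ Fin (n + 1) → σ) (p' : σ → k)
    (hp' : ∀ F, φ F = 0 → MvPolynomial.eval p' F = 0) :
    toW k n (fun i => p' (j i)) - baseW (fun i => φ (MvPolynomial.X (j i)))
      ∈ dirW (fun i => φ (MvPolynomial.X (j i))) := by
  rw [baseW, ← map_sub]
  exact mem_dirW.2 ⟨_, sub_mem_dirSp_of_ker φ j p' hp', rfl⟩

variable [CharZero k]

/-- **[PROD]**: the hypotheses `hperp`, `hiso₁`, `hiso₂` of `H192.tree`. -/
theorem prod_W (s r : Fin (n + 1) ⊕ Fin (n + 1) → MvPowerSeries τ k)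
    (hQ : ∑ i : Fin (n + 1), (s (Sum.inl i) - r (Sum.inl i)) * (s (Sum.inr i) - r (Sum.inr i)) = 0)
    (hT : ∀ l : τ, ∃ h : MvPowerSeries τ k, h ≠ 0 ∧ ∃ D₁ ∈ Der k τ, act D₁ r = 0 ∧
      act D₁ s = h • act (pderiv k l) s) :
    (∀ a ∈ dirW s, ∀ b ∈ dirW r, Bf a b = 0) ∧
    (Iso (dirW s) → ∀ a ∈ dirW s, Bf (baseW s - baseW r) a = 0) ∧
    (Iso (dirW r) → ∀ b ∈ dirW r, Bf (baseW s - baseW r) b = 0) := by
  have hQ' : Bm (bQ k n) (s - r) (s - r) = 0 := by
    rw [Bm_bQ, ← mul_zero (2 : MvPowerSeries τ k), ← hQ, Finset.mul_sum]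
    refine Finset.sum_congr rfl fun i _ => ?_
    simp only [Pi.sub_apply]
    ring
  obtain ⟨h1, h2, h3⟩ := prod_dir (bQ k n) bQ_symm s r hQ' hT
  refine ⟨?_, fun hI => ?_, fun hI => ?_⟩
  · intro a ha b hb
    obtain ⟨x, hx, rfl⟩ := mem_dirW.1 ha
    obtain ⟨y, hy, rfl⟩ := mem_dirW.1 hb
    rw [← bk_bQ]
    exact h1 x hx y hy
  · intro a ha
    obtain ⟨x, hx, rfl⟩ := mem_dirW.1 ha
    have e := h2 (fun x hx y hy => by
      rw [bk_bQ]
      exact hI.Bf_eq_zero (mem_dirW.2 ⟨x, hx, rfl⟩) (mem_dirW.2 ⟨y, hy, rfl⟩)) x hx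
    rw [bk_bQ, map_sub] at e
    exact e
  · intro a ha
    obtain ⟨x, hx, rfl⟩ := mem_dirW.1 ha
    have e := h3 (fun x hx y hy => by
      rw [bk_bQ]
      exact hI.Bf_eq_zero (mem_dirW.2 ⟨x, hx, rfl⟩) (mem_dirW.2 ⟨y, hy, rfl⟩)) x hx
    rw [bk_bQ, map_sub] at e
    exact e

/-- **[PROD], from 930's (T4)** (`H930.exists_split`): `φ` the germ homomorphism, `js`, `jr` the
coordinates of `s` and `r`, `p` the actual point, `f` an embedding of `k[[y]]` in a field. -/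
theorem prod_of_split [Fintype τ] {σ : Type*} (φ : MvPolynomial σ k →ₐ[k] MvPowerSeries τ k)
    (js jr : Fin (n + 1) ⊕ Fin (n + 1) → σ) (p : σ → k)
    (hφ0 : ∀ G, MvPowerSeries.constantCoeff (φ G) = MvPolynomial.eval p G)
    (hQ : φ (∑ i : Fin (n + 1), (MvPolynomial.X (js (Sum.inl i)) - MvPolynomial.X (jr (Sum.inl i)))
      * (MvPolynomial.X (js (Sum.inr i)) - MvPolynomial.X (jr (Sum.inr i)))) = 0)
    {L : Type*} [Field L] (f : MvPowerSeries τ k →+* L) (hf : Function.Injective f)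
    (h : ∀ l : τ, ∃ α : τ → L,
      (∀ x, ∑ m, α m * f (pderiv k m (φ (MvPolynomial.X (jr x)))) = 0) ∧
      ∀ x, ∑ m, α m * f (pderiv k m (φ (MvPolynomial.X (js x))))
        = f (pderiv k l (φ (MvPolynomial.X (js x))))) :
    ∃ V₁ V₂ : Submodule k (W k n),
      V₁ = dirW (fun i => φ (MvPolynomial.X (js i))) ∧
      V₂ = dirW (fun i => φ (MvPolynomial.X (jr i))) ∧
      (∀ a ∈ V₁, ∀ b ∈ V₂, Bf a b = 0) ∧
      (Iso V₁ → ∀ a ∈ V₁, Bf (toW k n (fun i => p (js i)) - toW k n (fun i => p (jr i))) a = 0) ∧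
      (Iso V₂ → ∀ a ∈ V₂, Bf (toW k n (fun i => p (js i)) - toW k n (fun i => p (jr i))) a = 0) ∧
      (∀ p' : σ → k, (∀ F, φ F = 0 → MvPolynomial.eval p' F = 0) →
        toW k n (fun i => p' (js i)) - toW k n (fun i => p (js i)) ∈ V₁ ∧
        toW k n (fun i => p' (jr i)) - toW k n (fun i => p (jr i)) ∈ V₂) := by
  have hb : ∀ j : Fin (n + 1) ⊕ Fin (n + 1) → σ,
      baseW (fun i => φ (MvPolynomial.X (j i))) = toW k n (fun i => p (j i)) := by
    intro j
    rw [baseW]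
    congr 1
    funext i
    rw [cvec_apply, coeff_zero_eq_constantCoeff_apply, hφ0, MvPolynomial.eval_X]
  have hQ' : ∑ i : Fin (n + 1), (φ (MvPolynomial.X (js (Sum.inl i)))
      - φ (MvPolynomial.X (jr (Sum.inl i)))) * (φ (MvPolynomial.X (js (Sum.inr i)))
      - φ (MvPolynomial.X (jr (Sum.inr i)))) = 0 := by
    rw [← hQ, map_sum]
    refine Finset.sum_congr rfl fun i _ => ?_
    rw [map_mul, map_sub, map_sub]
  obtain ⟨h1, h2, h3⟩ := prod_W (fun i => φ (MvPolynomial.X (js i)))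
    (fun i => φ (MvPolynomial.X (jr i))) hQ'
    (hT_of_split f hf _ _ h)
  rw [hb, hb] at h2 h3
  refine ⟨_, _, rfl, rfl, h1, h2, h3, fun p' hp' => ⟨?_, ?_⟩⟩
  · rw [← hb js]; exact sub_mem_dirW_of_ker φ js p' hp'
  · rw [← hb jr]; exact sub_mem_dirW_of_ker φ jr p' hp'

end Vale.Agent.P054.T2.H981
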